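import Vale.Agent.P030.V1.Ents
import Vale.Agent.P030.V1.Pc

/-!
# P030, route N: wall checks in the kernel, module 0
-/

namespace Vale.Agent.P030.V1

open Vale.Agent.P030.H532 Vale.Agent.P030.H440.Bd

/-- cells of piece 0, part 0 -/
def cls_0_0 : List Cell := [
  ⟨nat_lit 163840, nat_lit 4⟩, ⟨nat_lit 168960, nat_lit 2⟩, ⟨nat_lit 211200, nat_lit 1⟩, ⟨nat_lit 174900, nat_lit 2⟩,
  ⟨nat_lit 147571, nat_lit 4⟩, ⟨nat_lit 138347, nat_lit 4⟩, ⟨nat_lit 155640, nat_lit 2⟩, ⟨nat_lit 179958, nat_lit 1⟩,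
  ⟨nat_lit 140591, nat_lit 2⟩, ⟨nat_lit 134000, nat_lit 4⟩, ⟨nat_lit 121437, nat_lit 3⟩, ⟨nat_lit 136616, nat_lit 1⟩,
  ⟨nat_lit 140885, nat_lit 1⟩, ⟨nat_lit 112266, nat_lit 3⟩, ⟨nat_lit 115774, nat_lit 4⟩, ⟨nat_lit 115774, nat_lit 2⟩,
  ⟨nat_lit 141099, nat_lit 1⟩, ⟨nat_lit 116846, nat_lit 2⟩]

theorem c_0_0 :
    chunk pc_0 ents cmps_0 cls_0_0 (nat_lit 0) (nat_lit 5231408) = true := by
  decide +kernel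

/-- cells of piece 0, part 1 -/
def cls_0_1 : List Cell := [
  ⟨nat_lit 104065, nat_lit 3⟩, ⟨nat_lit 104065, nat_lit 3⟩, ⟨nat_lit 102438, nat_lit 2⟩, ⟨nat_lit 118443, nat_lit 1⟩,
  ⟨nat_lit 103637, nat_lit 2⟩, ⟨nat_lit 98778, nat_lit 3⟩, ⟨nat_lit 95691, nat_lit 3⟩, ⟨nat_lit 122603, nat_lit 1⟩,
  ⟨nat_lit 109192, nat_lit 1⟩, ⟨nat_lit 93836, nat_lit 3⟩, ⟨nat_lit 93836, nat_lit 3⟩, ⟨nat_lit 96768, nat_lit 1⟩,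
  ⟨nat_lit 105840, nat_lit 1⟩, ⟨nat_lit 97571, nat_lit 2⟩, ⟨nat_lit 91472, nat_lit 3⟩, ⟨nat_lit 88613, nat_lit 3⟩,
  ⟨nat_lit 113535, nat_lit 1⟩, ⟨nat_lit 102891, nat_lit 1⟩]

theorem c_0_1 :
    chunk pc_0 ents cmps_0 cls_0_1 (nat_lit 5231408) (nat_lit 8917956) = true := by
  decide +kernel

/-- cells of piece 0, part 2 -/
def cls_0_2 : List Cell := [
  ⟨nat_lit 90029, nat_lit 3⟩, ⟨nat_lit 90029, nat_lit 3⟩, ⟨nat_lit 92842, nat_lit 2⟩, ⟨nat_lit 107348, nat_lit 1⟩,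
  ⟨nat_lit 95606, nat_lit 2⟩, ⟨nat_lit 88136, nat_lit 3⟩, ⟨nat_lit 88136, nat_lit 3⟩, ⟨nat_lit 104661, nat_lit 1⟩,
  ⟨nat_lit 117743, nat_lit 1⟩, ⟨nat_lit 93826, nat_lit 3⟩, ⟨nat_lit 99690, nat_lit 4⟩, ⟨nat_lit 95016, nat_lit 3⟩,
  ⟨nat_lit 124708, nat_lit 1⟩, ⟨nat_lit 113016, nat_lit 1⟩, ⟨nat_lit 97123, nat_lit 3⟩, ⟨nat_lit 100158, nat_lit 4⟩,
  ⟨nat_lit 109547, nat_lit 3⟩]

theorem c_0_2 :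
    chunk pc_0 ents cmps_0 cls_0_2 (nat_lit 8917956) (nat_lit 12333184) = true := by
  decide +kernel

/-- cells of piece 0, part 3 -/
def cls_0_3 : List Cell := [
  ⟨nat_lit 130086, nat_lit 1⟩, ⟨nat_lit 126020, nat_lit 2⟩, ⟨nat_lit 110267, nat_lit 3⟩, ⟨nat_lit 110267, nat_lit 5⟩,
  ⟨nat_lit 113712, nat_lit 4⟩, ⟨nat_lit 145693, nat_lit 2⟩, ⟨nat_lit 159351, nat_lit 1⟩, ⟨nat_lit 136942, nat_lit 2⟩,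
  ⟨nat_lit 117684, nat_lit 5⟩, ⟨nat_lit 125039, nat_lit 6⟩, ⟨nat_lit 128946, nat_lit 6⟩, ⟨nat_lit 149093, nat_lit 4⟩,
  ⟨nat_lit 191025, nat_lit 2⟩, ⟨nat_lit 179085, nat_lit 3⟩, ⟨nat_lit 151102, nat_lit 5⟩, ⟨nat_lit 143088, nat_lit 7⟩,
  ⟨nat_lit 4616, nat_lit 304⟩]

theorem c_0_3 :
    chunk pc_0 ents cmps_0 cls_0_3 (nat_lit 12333184) (nat_lit 16777216) = true := by
  decide +kernel

/-- cells of piece 1, part 0 -/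
def cls_1_0 : List Cell := [
  ⟨nat_lit 167936, nat_lit 5⟩, ⟨nat_lit 173184, nat_lit 3⟩, ⟨nat_lit 200244, nat_lit 2⟩, ⟨nat_lit 200244, nat_lit 2⟩,
  ⟨nat_lit 147054, nat_lit 4⟩, ⟨nat_lit 144756, nat_lit 5⟩, ⟨nat_lit 144756, nat_lit 3⟩, ⟨nat_lit 176421, nat_lit 1⟩,
  ⟨nat_lit 192960, nat_lit 1⟩, ⟨nat_lit 153765, nat_lit 2⟩, ⟨nat_lit 148959, nat_lit 4⟩, ⟨nat_lit 134994, nat_lit 3⟩,
  ⟨nat_lit 160305, nat_lit 1⟩, ⟨nat_lit 137761, nat_lit 1⟩, ⟨nat_lit 111930, nat_lit 3⟩, ⟨nat_lit 111930, nat_lit 4⟩,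
  ⟨nat_lit 110181, nat_lit 2⟩]

theorem c_1_0 :
    chunk pc_1 ents cmps_1 cls_1_0 (nat_lit 0) (nat_lit 5234760) = true := by
  decide +kernel

/-- cells of piece 1, part 1 -/
def cls_1_1 : List Cell := [
  ⟨nat_lit 134282, nat_lit 1⟩, ⟨nat_lit 123790, nat_lit 1⟩, ⟨nat_lit 98644, nat_lit 3⟩, ⟨nat_lit 97102, nat_lit 4⟩,
  ⟨nat_lit 112273, nat_lit 2⟩, ⟨nat_lit 126307, nat_lit 1⟩, ⟨nat_lit 104597, nat_lit 2⟩, ⟨nat_lit 94790, nat_lit 4⟩,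
  ⟨nat_lit 88865, nat_lit 3⟩, ⟨nat_lit 113858, nat_lit 1⟩, ⟨nat_lit 112078, nat_lit 1⟩, ⟨nat_lit 89311, nat_lit 3⟩,
  ⟨nat_lit 87915, nat_lit 3⟩, ⟨nat_lit 96156, nat_lit 2⟩, ⟨nat_lit 111180, nat_lit 1⟩, ⟨nat_lit 93807, nat_lit 2⟩,
  ⟨nat_lit 87944, nat_lit 4⟩]

theorem c_1_1 :
    chunk pc_1 ents cmps_1 cls_1_1 (nat_lit 5234760) (nat_lit 8780558) = true := by
  decide +kernel

end Vale.Agent.P030.V1
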