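import Vale.Agent.P030.V1.Ents
import Vale.Agent.P030.V1.Pc

/-!
# P030, route N: wall checks in the kernel, module 1
-/

namespace Vale.Agent.P030.V1

open Vale.Agent.P030.H532 Vale.Agent.P030.H440.Bd

/-- cells of piece 1, part 2 -/
def cls_1_2 : List Cell := [
  ⟨nat_lit 85195, nat_lit 2⟩, ⟨nat_lit 103830, nat_lit 1⟩, ⟨nat_lit 103830, nat_lit 1⟩, ⟨nat_lit 85983, nat_lit 3⟩,
  ⟨nat_lit 85983, nat_lit 3⟩, ⟨nat_lit 96730, nat_lit 2⟩, ⟨nat_lit 114866, nat_lit 1⟩, ⟨nat_lit 95122, nat_lit 2⟩,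
  ⟨nat_lit 90662, nat_lit 4⟩, ⟨nat_lit 89245, nat_lit 3⟩, ⟨nat_lit 114344, nat_lit 1⟩, ⟨nat_lit 114344, nat_lit 1⟩,
  ⟨nat_lit 91117, nat_lit 3⟩, ⟨nat_lit 96811, nat_lit 4⟩, ⟨nat_lit 114962, nat_lit 2⟩, ⟨nat_lit 132924, nat_lit 1⟩,
  ⟨nat_lit 116308, nat_lit 2⟩]

theorem c_1_2 :
    chunk pc_1 ents cmps_1 cls_1_2 (nat_lit 8780558) (nat_lit 12245070) = true := by
  decide +kernel

/-- cells of piece 1, part 3 -/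
def cls_1_3 : List Cell := [
  ⟨nat_lit 103586, nat_lit 4⟩, ⟨nat_lit 97111, nat_lit 3⟩, ⟨nat_lit 124422, nat_lit 1⟩, ⟨nat_lit 143862, nat_lit 1⟩,
  ⟨nat_lit 112391, nat_lit 2⟩, ⟨nat_lit 112391, nat_lit 4⟩, ⟨nat_lit 115903, nat_lit 4⟩, ⟨nat_lit 144878, nat_lit 2⟩,
  ⟨nat_lit 176569, nat_lit 1⟩, ⟨nat_lit 140702, nat_lit 3⟩, ⟨nat_lit 127511, nat_lit 5⟩, ⟨nat_lit 127511, nat_lit 5⟩,
  ⟨nat_lit 167357, nat_lit 2⟩, ⟨nat_lit 209196, nat_lit 1⟩, ⟨nat_lit 169971, nat_lit 2⟩, ⟨nat_lit 143412, nat_lit 5⟩,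
  ⟨nat_lit 49300, nat_lit 21⟩]

theorem c_1_3 :
    chunk pc_1 ents cmps_1 cls_1_3 (nat_lit 12245070) (nat_lit 16777216) = true := by
  decide +kernel

/-- cells of piece 2, part 0 -/
def cls_2_0 : List Cell := [
  ⟨nat_lit 311296, nat_lit 7⟩, ⟨nat_lit 238336, nat_lit 8⟩, ⟨nat_lit 186200, nat_lit 9⟩, ⟨nat_lit 180381, nat_lit 8⟩,
  ⟨nat_lit 174744, nat_lit 7⟩, ⟨nat_lit 185665, nat_lit 6⟩, ⟨nat_lit 185665, nat_lit 5⟩, ⟨nat_lit 179862, nat_lit 6⟩,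
  ⟨nat_lit 162999, nat_lit 8⟩, ⟨nat_lit 162999, nat_lit 9⟩, ⟨nat_lit 162999, nat_lit 10⟩, ⟨nat_lit 160452, nat_lit 8⟩,
  ⟨nat_lit 157944, nat_lit 7⟩, ⟨nat_lit 172751, nat_lit 4⟩, ⟨nat_lit 199742, nat_lit 3⟩, ⟨nat_lit 190379, nat_lit 2⟩,
  ⟨nat_lit 166581, nat_lit 4⟩, ⟨nat_lit 143155, nat_lit 6⟩, ⟨nat_lit 134207, nat_lit 7⟩]

theorem c_2_0 :
    chunk pc_2 ents cmps_2 cls_2_0 (nat_lit 0) (nat_lit 6912714) = true := by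
  decide +kernel

/-- cells of piece 2, part 1 -/
def cls_2_1 : List Cell := [
  ⟨nat_lit 125819, nat_lit 6⟩, ⟨nat_lit 137614, nat_lit 4⟩, ⟨nat_lit 137614, nat_lit 3⟩, ⟨nat_lit 141914, nat_lit 2⟩,
  ⟨nat_lit 128609, nat_lit 3⟩, ⟨nat_lit 118560, nat_lit 5⟩, ⟨nat_lit 118560, nat_lit 6⟩, ⟨nat_lit 122265, nat_lit 6⟩,
  ⟨nat_lit 141368, nat_lit 4⟩, ⟨nat_lit 150203, nat_lit 2⟩, ⟨nat_lit 159590, nat_lit 2⟩, ⟨nat_lit 144628, nat_lit 3⟩,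
  ⟨nat_lit 124289, nat_lit 6⟩, ⟨nat_lit 128173, nat_lit 6⟩, ⟨nat_lit 120162, nat_lit 5⟩, ⟨nat_lit 120162, nat_lit 4⟩,
  ⟨nat_lit 127672, nat_lit 3⟩, ⟨nat_lit 131661, nat_lit 3⟩]

theorem c_2_1 :
    chunk pc_2 ents cmps_2 cls_2_1 (nat_lit 6912714) (nat_lit 11670440) = true := by
  decide +kernel

/-- cells of piece 2, part 2 -/
def cls_2_2 : List Cell := [
  ⟨nat_lit 127546, nat_lit 4⟩, ⟨nat_lit 123560, nat_lit 5⟩, ⟨nat_lit 135143, nat_lit 6⟩, ⟨nat_lit 135143, nat_lit 6⟩,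
  ⟨nat_lit 152035, nat_lit 4⟩, ⟨nat_lit 166288, nat_lit 3⟩, ⟨nat_lit 171484, nat_lit 3⟩, ⟨nat_lit 168804, nat_lit 4⟩,
  ⟨nat_lit 150340, nat_lit 6⟩, ⟨nat_lit 155038, nat_lit 6⟩, ⟨nat_lit 145348, nat_lit 5⟩, ⟨nat_lit 133992, nat_lit 4⟩,
  ⟨nat_lit 138179, nat_lit 4⟩, ⟨nat_lit 138179, nat_lit 4⟩, ⟨nat_lit 159769, nat_lit 3⟩, ⟨nat_lit 174747, nat_lit 4⟩,
  ⟨nat_lit 172016, nat_lit 6⟩, ⟨nat_lit 5777, nat_lit 269⟩]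

theorem c_2_2 :
    chunk pc_2 ents cmps_2 cls_2_2 (nat_lit 11670440) (nat_lit 16777216) = true := by
  decide +kernel

/-- cells of piece 3, part 0 -/
def cls_3_0 : List Cell := [
  ⟨nat_lit 79872, nat_lit 3⟩, ⟨nat_lit 99840, nat_lit 1⟩, ⟨nat_lit 95160, nat_lit 1⟩, ⟨nat_lit 74343, nat_lit 3⟩,
  ⟨nat_lit 78989, nat_lit 3⟩, ⟨nat_lit 93799, nat_lit 1⟩, ⟨nat_lit 89401, nat_lit 0⟩, ⟨nat_lit 75431, nat_lit 2⟩,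
  ⟨nat_lit 77788, nat_lit 3⟩, ⟨nat_lit 82649, nat_lit 1⟩, ⟨nat_lit 90397, nat_lit 0⟩, ⟨nat_lit 76272, nat_lit 2⟩,
  ⟨nat_lit 76272, nat_lit 3⟩, ⟨nat_lit 78655, nat_lit 1⟩, ⟨nat_lit 90944, nat_lit 0⟩, ⟨nat_lit 73892, nat_lit 2⟩,
  ⟨nat_lit 73892, nat_lit 3⟩, ⟨nat_lit 76201, nat_lit 1⟩, ⟨nat_lit 85726, nat_lit 0⟩, ⟨nat_lit 72331, nat_lit 2⟩]

theorem c_3_0 :
    chunk pc_3 ents cmps_3 cls_3_0 (nat_lit 0) (nat_lit 3283708) = true := by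
  decide +kernel

end Vale.Agent.P030.V1
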