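import Vale.Agent.P030.V1.Ents
import Vale.Agent.P030.V1.Pc

/-!
# P030, route N: wall checks in the kernel, module 2
-/

namespace Vale.Agent.P030.V1

open Vale.Agent.P030.H532 Vale.Agent.P030.H440.Bd

/-- cells of piece 3, part 1 -/
def cls_3_1 : List Cell := [
  ⟨nat_lit 71200, nat_lit 3⟩, ⟨nat_lit 75650, nat_lit 1⟩, ⟨nat_lit 85106, nat_lit 0⟩, ⟨nat_lit 70477, nat_lit 2⟩,
  ⟨nat_lit 70477, nat_lit 3⟩, ⟨nat_lit 74881, nat_lit 1⟩, ⟨nat_lit 84241, nat_lit 0⟩, ⟨nat_lit 71077, nat_lit 2⟩,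
  ⟨nat_lit 71077, nat_lit 3⟩, ⟨nat_lit 75519, nat_lit 1⟩, ⟨nat_lit 84958, nat_lit 0⟩, ⟨nat_lit 71683, nat_lit 2⟩,
  ⟨nat_lit 73923, nat_lit 3⟩, ⟨nat_lit 78543, nat_lit 1⟩, ⟨nat_lit 85905, nat_lit 0⟩, ⟨nat_lit 72481, nat_lit 2⟩,
  ⟨nat_lit 74746, nat_lit 3⟩, ⟨nat_lit 79417, nat_lit 1⟩, ⟨nat_lit 89344, nat_lit 0⟩, ⟨nat_lit 76780, nat_lit 2⟩]

theorem c_3_1 :
    chunk pc_3 ents cmps_3 cls_3_1 (nat_lit 3283708) (nat_lit 6358678) = true := by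
  decide +kernel

/-- cells of piece 3, part 2 -/
def cls_3_2 : List Cell := [
  ⟨nat_lit 76780, nat_lit 3⟩, ⟨nat_lit 79179, nat_lit 2⟩, ⟨nat_lit 98973, nat_lit 0⟩, ⟨nat_lit 81961, nat_lit 2⟩,
  ⟨nat_lit 80680, nat_lit 3⟩, ⟨nat_lit 80680, nat_lit 2⟩, ⟨nat_lit 95807, nat_lit 1⟩, ⟨nat_lit 101794, nat_lit 1⟩,
  ⟨nat_lit 81116, nat_lit 3⟩, ⟨nat_lit 81116, nat_lit 4⟩, ⟨nat_lit 101395, nat_lit 1⟩, ⟨nat_lit 120406, nat_lit 1⟩,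
  ⟨nat_lit 101592, nat_lit 2⟩, ⟨nat_lit 96829, nat_lit 4⟩, ⟨nat_lit 99854, nat_lit 3⟩, ⟨nat_lit 137299, nat_lit 1⟩,
  ⟨nat_lit 137299, nat_lit 1⟩, ⟨nat_lit 113700, nat_lit 3⟩, ⟨nat_lit 113700, nat_lit 4⟩]

theorem c_3_2 :
    chunk pc_3 ents cmps_3 cls_3_2 (nat_lit 6358678) (nat_lit 10118998) = true := by
  decide +kernel

/-- cells of piece 3, part 3 -/
def cls_3_3 : List Cell := [
  ⟨nat_lit 124359, nat_lit 4⟩, ⟨nat_lit 159334, nat_lit 2⟩, ⟨nat_lit 179250, nat_lit 1⟩, ⟨nat_lit 162444, nat_lit 3⟩,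
  ⟨nat_lit 137061, nat_lit 5⟩, ⟨nat_lit 145627, nat_lit 6⟩, ⟨nat_lit 163830, nat_lit 3⟩, ⟨nat_lit 209906, nat_lit 2⟩,
  ⟨nat_lit 223025, nat_lit 2⟩, ⟨nat_lit 191661, nat_lit 3⟩, ⟨nat_lit 170697, nat_lit 6⟩, ⟨nat_lit 176031, nat_lit 7⟩,
  ⟨nat_lit 176031, nat_lit 5⟩, ⟨nat_lit 203535, nat_lit 4⟩, ⟨nat_lit 228976, nat_lit 3⟩, ⟨nat_lit 228976, nat_lit 3⟩,
  ⟨nat_lit 211087, nat_lit 5⟩, ⟨nat_lit 204490, nat_lit 6⟩, ⟨nat_lit 32789, nat_lit 58⟩]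

theorem c_3_3 :
    chunk pc_3 ents cmps_3 cls_3_3 (nat_lit 10118998) (nat_lit 16777216) = true := by
  decide +kernel

/-- cells of piece 4, part 0 -/
def cls_4_0 : List Cell := [
  ⟨nat_lit 655360, nat_lit 30⟩, ⟨nat_lit 624640, nat_lit 30⟩, ⟨nat_lit 585600, nat_lit 30⟩, ⟨nat_lit 549000, nat_lit 30⟩,
  ⟨nat_lit 523265, nat_lit 30⟩, ⟨nat_lit 490560, nat_lit 30⟩, ⟨nat_lit 459900, nat_lit 30⟩, ⟨nat_lit 431156, nat_lit 30⟩,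
  ⟨nat_lit 404208, nat_lit 30⟩, ⟨nat_lit 385260, nat_lit 30⟩, ⟨nat_lit 361181, nat_lit 30⟩, ⟨nat_lit 338607, nat_lit 30⟩]

theorem c_4_0 :
    chunk pc_4 ents cmps_4 cls_4_0 (nat_lit 0) (nat_lit 11617474) = true := by
  decide +kernel

/-- cells of piece 4, part 1 -/
def cls_4_1 : List Cell := [
  ⟨nat_lit 317444, nat_lit 30⟩, ⟨nat_lit 302563, nat_lit 30⟩, ⟨nat_lit 283652, nat_lit 30⟩, ⟨nat_lit 265923, nat_lit 30⟩,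
  ⟨nat_lit 249302, nat_lit 30⟩, ⟨nat_lit 233720, nat_lit 30⟩, ⟨nat_lit 222764, nat_lit 30⟩, ⟨nat_lit 208841, nat_lit 30⟩,
  ⟨nat_lit 195788, nat_lit 30⟩, ⟨nat_lit 183551, nat_lit 30⟩, ⟨nat_lit 116323, nat_lit 46⟩]

theorem c_4_1 :
    chunk pc_4 ents cmps_4 cls_4_1 (nat_lit 11617474) (nat_lit 16777216) = true := by
  decide +kernel

/-- cells of piece 5, part 0 -/
def cls_5_0 : List Cell := [
  ⟨nat_lit 58368, nat_lit 2⟩, ⟨nat_lit 72960, nat_lit 0⟩, ⟨nat_lit 64980, nat_lit 1⟩, ⟨nat_lit 77163, nat_lit 2⟩,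
  ⟨nat_lit 91630, nat_lit 1⟩, ⟨nat_lit 111673, nat_lit 0⟩, ⟨nat_lit 102948, nat_lit 1⟩, ⟨nat_lit 99730, nat_lit 1⟩,
  ⟨nat_lit 115312, nat_lit 0⟩, ⟨nat_lit 86484, nat_lit 2⟩, ⟨nat_lit 102699, nat_lit 2⟩, ⟨nat_lit 105908, nat_lit 1⟩,
  ⟨nat_lit 119146, nat_lit 0⟩, ⟨nat_lit 102390, nat_lit 2⟩, ⟨nat_lit 99190, nat_lit 2⟩, ⟨nat_lit 117787, nat_lit 0⟩,
  ⟨nat_lit 104903, nat_lit 1⟩, ⟨nat_lit 111459, nat_lit 2⟩, ⟨nat_lit 118425, nat_lit 1⟩, ⟨nat_lit 136928, nat_lit 0⟩,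
  ⟨nat_lit 111254, nat_lit 2⟩]

theorem c_5_0 :
    chunk pc_5 ents cmps_5 cls_5_0 (nat_lit 0) (nat_lit 4222674) = true := by
  decide +kernel

end Vale.Agent.P030.V1
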