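import Vale.Agent.P030.V1.Ents
import Vale.Agent.P030.V1.Pc

/-!
# P030, route N: wall checks in the kernel, module 3
-/

namespace Vale.Agent.P030.V1

open Vale.Agent.P030.H532 Vale.Agent.P030.H440.Bd

/-- cells of piece 5, part 1 -/
def cls_5_1 : List Cell := [
  ⟨nat_lit 107777, nat_lit 2⟩, ⟨nat_lit 124617, nat_lit 0⟩, ⟨nat_lit 116828, nat_lit 1⟩, ⟨nat_lit 124129, nat_lit 2⟩,
  ⟨nat_lit 128008, nat_lit 1⟩, ⟨nat_lit 148009, nat_lit 0⟩, ⟨nat_lit 120256, nat_lit 2⟩, ⟨nat_lit 116498, nat_lit 2⟩,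
  ⟨nat_lit 134700, nat_lit 0⟩, ⟨nat_lit 124176, nat_lit 1⟩, ⟨nat_lit 131937, nat_lit 2⟩, ⟨nat_lit 136060, nat_lit 1⟩,
  ⟨nat_lit 157319, nat_lit 0⟩, ⟨nat_lit 127821, nat_lit 2⟩, ⟨nat_lit 127821, nat_lit 2⟩, ⟨nat_lit 143798, nat_lit 0⟩,
  ⟨nat_lit 139304, nat_lit 1⟩, ⟨nat_lit 143657, nat_lit 2⟩, ⟨nat_lit 152635, nat_lit 1⟩, ⟨nat_lit 171714, nat_lit 0⟩,
  ⟨nat_lit 139517, nat_lit 2⟩]

theorem c_5_1 :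
    chunk pc_5 ents cmps_5 cls_5_1 (nat_lit 4222674) (nat_lit 9855836) = true := by
  decide +kernel

/-- cells of piece 5, part 2 -/
def cls_5_2 : List Cell := [
  ⟨nat_lit 139517, nat_lit 2⟩, ⟨nat_lit 156956, nat_lit 0⟩, ⟨nat_lit 152051, nat_lit 1⟩, ⟨nat_lit 156802, nat_lit 2⟩,
  ⟨nat_lit 166602, nat_lit 1⟩, ⟨nat_lit 187427, nat_lit 0⟩, ⟨nat_lit 152284, nat_lit 2⟩, ⟨nat_lit 152284, nat_lit 2⟩,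
  ⟨nat_lit 166560, nat_lit 0⟩, ⟨nat_lit 166560, nat_lit 1⟩, ⟨nat_lit 202995, nat_lit 1⟩, ⟨nat_lit 190307, nat_lit 0⟩,
  ⟨nat_lit 196254, nat_lit 0⟩, ⟨nat_lit 162522, nat_lit 2⟩, ⟨nat_lit 132048, nat_lit 2⟩, ⟨nat_lit 119668, nat_lit 1⟩,
  ⟨nat_lit 142105, nat_lit 0⟩, ⟨nat_lit 135443, nat_lit 1⟩, ⟨nat_lit 165070, nat_lit 2⟩, ⟨nat_lit 201178, nat_lit 1⟩,
  ⟨nat_lit 216057, nat_lit 0⟩]

theorem c_5_2 :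
    chunk pc_5 ents cmps_5 cls_5_2 (nat_lit 9855836) (nat_lit 16777216) = true := by
  decide +kernel

/-- cells of piece 6, part 0 -/
def cls_6_0 : List Cell := [
  ⟨nat_lit 1081344, nat_lit 30⟩, ⟨nat_lit 1013760, nat_lit 30⟩, ⟨nat_lit 966240, nat_lit 30⟩, ⟨nat_lit 905850, nat_lit 30⟩,
  ⟨nat_lit 849234, nat_lit 30⟩, ⟨nat_lit 809425, nat_lit 30⟩, ⟨nat_lit 758835, nat_lit 30⟩, ⟨nat_lit 711407, nat_lit 30⟩,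
  ⟨nat_lit 666944, nat_lit 30⟩, ⟨nat_lit 625569, nat_lit 30⟩]

theorem c_6_0 :
    chunk pc_6 ents cmps_6 cls_6_0 (nat_lit 0) (nat_lit 16777216) = true := by
  decide +kernel

/-- cells of piece 7, part 0 -/
def cls_7_0 : List Cell := [
  ⟨nat_lit 35840, nat_lit 1⟩, ⟨nat_lit 33600, nat_lit 1⟩, ⟨nat_lit 33600, nat_lit 0⟩, ⟨nat_lit 22575, nat_lit 1⟩,
  ⟨nat_lit 15520, nat_lit 1⟩, ⟨nat_lit 16490, nat_lit 1⟩, ⟨nat_lit 29887, nat_lit 1⟩, ⟨nat_lit 32688, nat_lit 0⟩,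
  ⟨nat_lit 29112, nat_lit 2⟩, ⟨nat_lit 30021, nat_lit 2⟩, ⟨nat_lit 34711, nat_lit 0⟩, ⟨nat_lit 33083, nat_lit 1⟩,
  ⟨nat_lit 35150, nat_lit 2⟩, ⟨nat_lit 31854, nat_lit 1⟩, ⟨nat_lit 42803, nat_lit 0⟩, ⟨nat_lit 30764, nat_lit 2⟩,
  ⟨nat_lit 36532, nat_lit 2⟩, ⟨nat_lit 36532, nat_lit 0⟩]

theorem c_7_0 :
    chunk pc_7 ents cmps_7 cls_7_0 (nat_lit 0) (nat_lit 1121524) = true := by
  decide +kernel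

/-- cells of piece 7, part 1 -/
def cls_7_1 : List Cell := [
  ⟨nat_lit 37673, nat_lit 0⟩, ⟨nat_lit 37084, nat_lit 2⟩, ⟨nat_lit 35345, nat_lit 2⟩, ⟨nat_lit 46390, nat_lit 0⟩,
  ⟨nat_lit 38416, nat_lit 1⟩, ⟨nat_lit 42017, nat_lit 2⟩, ⟨nat_lit 42017, nat_lit 1⟩, ⟨nat_lit 45956, nat_lit 0⟩,
  ⟨nat_lit 40929, nat_lit 2⟩, ⟨nat_lit 40929, nat_lit 2⟩, ⟨nat_lit 49882, nat_lit 0⟩, ⟨nat_lit 46764, nat_lit 1⟩,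
  ⟨nat_lit 46764, nat_lit 2⟩, ⟨nat_lit 49686, nat_lit 1⟩, ⟨nat_lit 52791, nat_lit 0⟩, ⟨nat_lit 46192, nat_lit 2⟩,
  ⟨nat_lit 47635, nat_lit 2⟩, ⟨nat_lit 53589, nat_lit 0⟩]

theorem c_7_1 :
    chunk pc_7 ents cmps_7 cls_7_1 (nat_lit 1121524) (nat_lit 2721642) = true := by
  decide +kernel

/-- cells of piece 7, part 2 -/
def cls_7_2 : List Cell := [
  ⟨nat_lit 52751, nat_lit 1⟩, ⟨nat_lit 52751, nat_lit 2⟩, ⟨nat_lit 48629, nat_lit 2⟩, ⟨nat_lit 71423, nat_lit 0⟩,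
  ⟨nat_lit 51335, nat_lit 1⟩, ⟨nat_lit 57751, nat_lit 2⟩, ⟨nat_lit 61360, nat_lit 1⟩, ⟨nat_lit 63277, nat_lit 0⟩,
  ⟨nat_lit 57344, nat_lit 2⟩, ⟨nat_lit 59136, nat_lit 2⟩, ⟨nat_lit 66528, nat_lit 0⟩, ⟨nat_lit 66528, nat_lit 1⟩,
  ⟨nat_lit 65488, nat_lit 2⟩, ⟨nat_lit 64464, nat_lit 2⟩, ⟨nat_lit 80580, nat_lit 0⟩, ⟨nat_lit 76802, nat_lit 1⟩,
  ⟨nat_lit 73201, nat_lit 2⟩, ⟨nat_lit 73201, nat_lit 1⟩]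

theorem c_7_2 :
    chunk pc_7 ents cmps_7 cls_7_2 (nat_lit 2721642) (nat_lit 5006740) = true := by
  decide +kernel

end Vale.Agent.P030.V1
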