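import Vale.Agent.P030.V1.Ents
import Vale.Agent.P030.V1.Pc

/-!
# P030, route N: wall checks in the kernel, module 4
-/

namespace Vale.Agent.P030.V1

open Vale.Agent.P030.H532 Vale.Agent.P030.H440.Bd

/-- cells of piece 7, part 3 -/
def cls_7_3 : List Cell := [
  ⟨nat_lit 98363, nat_lit 0⟩, ⟨nat_lit 73772, nat_lit 2⟩, ⟨nat_lit 78382, nat_lit 3⟩, ⟨nat_lit 93078, nat_lit 1⟩,
  ⟨nat_lit 95986, nat_lit 0⟩, ⟨nat_lit 82487, nat_lit 2⟩, ⟨nat_lit 85064, nat_lit 2⟩, ⟨nat_lit 103671, nat_lit 1⟩,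
  ⟨nat_lit 103671, nat_lit 0⟩, ⟨nat_lit 92331, nat_lit 2⟩, ⟨nat_lit 95216, nat_lit 3⟩, ⟨nat_lit 119020, nat_lit 1⟩,
  ⟨nat_lit 117160, nat_lit 0⟩, ⟨nat_lit 102515, nat_lit 2⟩, ⟨nat_lit 112125, nat_lit 3⟩, ⟨nat_lit 140156, nat_lit 1⟩,
  ⟨nat_lit 135776, nat_lit 0⟩, ⟨nat_lit 120925, nat_lit 2⟩]

theorem c_7_3 :
    chunk pc_7 ents cmps_7 cls_7_3 (nat_lit 5006740) (nat_lit 8706136) = true := by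
  decide +kernel

/-- cells of piece 7, part 4 -/
def cls_7_4 : List Cell := [
  ⟨nat_lit 132261, nat_lit 3⟩, ⟨nat_lit 152926, nat_lit 1⟩, ⟨nat_lit 167262, nat_lit 0⟩, ⟨nat_lit 148967, nat_lit 2⟩,
  ⟨nat_lit 148967, nat_lit 3⟩, ⟨nat_lit 158277, nat_lit 2⟩, ⟨nat_lit 212684, nat_lit 0⟩, ⟨nat_lit 285793, nat_lit 0⟩,
  ⟨nat_lit 321517, nat_lit 0⟩, ⟨nat_lit 341611, nat_lit 0⟩, ⟨nat_lit 309584, nat_lit 1⟩, ⟨nat_lit 237025, nat_lit 4⟩,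
  ⟨nat_lit 211099, nat_lit 4⟩, ⟨nat_lit 230889, nat_lit 3⟩, ⟨nat_lit 339117, nat_lit 2⟩, ⟨nat_lit 441706, nat_lit 2⟩,
  ⟨nat_lit 195855, nat_lit 9⟩]

theorem c_7_4 :
    chunk pc_7 ents cmps_7 cls_7_4 (nat_lit 8706136) (nat_lit 16777216) = true := by
  decide +kernel

/-- cells of piece 8, part 0 -/
def cls_8_0 : List Cell := [
  ⟨nat_lit 86016, nat_lit 4⟩, ⟨nat_lit 80640, nat_lit 3⟩, ⟨nat_lit 85680, nat_lit 2⟩, ⟨nat_lit 70953, nat_lit 3⟩,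
  ⟨nat_lit 84256, nat_lit 3⟩, ⟨nat_lit 78990, nat_lit 3⟩, ⟨nat_lit 71584, nat_lit 2⟩, ⟨nat_lit 89480, nat_lit 0⟩,
  ⟨nat_lit 71304, nat_lit 1⟩, ⟨nat_lit 69075, nat_lit 2⟩, ⟨nat_lit 66916, nat_lit 1⟩, ⟨nat_lit 66916, nat_lit 0⟩,
  ⟨nat_lit 56460, nat_lit 2⟩, ⟨nat_lit 65281, nat_lit 2⟩, ⟨nat_lit 67321, nat_lit 1⟩, ⟨nat_lit 65217, nat_lit 0⟩,
  ⟨nat_lit 61140, nat_lit 2⟩, ⟨nat_lit 59229, nat_lit 2⟩, ⟨nat_lit 58303, nat_lit 1⟩, ⟨nat_lit 58303, nat_lit 1⟩]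

theorem c_8_0 :
    chunk pc_8 ents cmps_8 cls_8_0 (nat_lit 0) (nat_lit 2826128) = true := by
  decide +kernel

/-- cells of piece 8, part 1 -/
def cls_8_1 : List Cell := [
  ⟨nat_lit 60124, nat_lit 2⟩, ⟨nat_lit 54487, nat_lit 2⟩, ⟨nat_lit 61297, nat_lit 0⟩, ⟨nat_lit 60339, nat_lit 1⟩,
  ⟨nat_lit 62224, nat_lit 2⟩, ⟨nat_lit 58335, nat_lit 1⟩, ⟨nat_lit 57423, nat_lit 0⟩, ⟨nat_lit 51142, nat_lit 2⟩,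
  ⟨nat_lit 55936, nat_lit 2⟩, ⟨nat_lit 54188, nat_lit 1⟩, ⟨nat_lit 54188, nat_lit 1⟩, ⟨nat_lit 55881, nat_lit 2⟩,
  ⟨nat_lit 48895, nat_lit 2⟩, ⟨nat_lit 56534, nat_lit 0⟩, ⟨nat_lit 54767, nat_lit 1⟩, ⟨nat_lit 58189, nat_lit 2⟩,
  ⟨nat_lit 54552, nat_lit 1⟩, ⟨nat_lit 53699, nat_lit 0⟩, ⟨nat_lit 50342, nat_lit 2⟩, ⟨nat_lit 49555, nat_lit 2⟩]

theorem c_8_1 :
    chunk pc_8 ents cmps_8 cls_8_1 (nat_lit 2826128) (nat_lit 5050322) = true := by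
  decide +kernel

/-- cells of piece 8, part 2 -/
def cls_8_2 : List Cell := [
  ⟨nat_lit 49555, nat_lit 0⟩, ⟨nat_lit 49555, nat_lit 1⟩, ⟨nat_lit 52652, nat_lit 2⟩, ⟨nat_lit 46892, nat_lit 1⟩,
  ⟨nat_lit 57149, nat_lit 0⟩, ⟨nat_lit 50005, nat_lit 1⟩, ⟨nat_lit 53130, nat_lit 2⟩, ⟨nat_lit 50639, nat_lit 1⟩,
  ⟨nat_lit 50639, nat_lit 0⟩, ⟨nat_lit 47474, nat_lit 2⟩, ⟨nat_lit 47474, nat_lit 2⟩, ⟨nat_lit 50441, nat_lit 0⟩,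
  ⟨nat_lit 50441, nat_lit 1⟩, ⟨nat_lit 53593, nat_lit 2⟩, ⟨nat_lit 48568, nat_lit 1⟩, ⟨nat_lit 53121, nat_lit 0⟩,
  ⟨nat_lit 44820, nat_lit 1⟩, ⟨nat_lit 50422, nat_lit 2⟩, ⟨nat_lit 48058, nat_lit 1⟩, ⟨nat_lit 48058, nat_lit 0⟩]

theorem c_8_2 :
    chunk pc_8 ents cmps_8 cls_8_2 (nat_lit 5050322) (nat_lit 7055694) = true := by
  decide +kernel

/-- cells of piece 8, part 3 -/
def cls_8_3 : List Cell := [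
  ⟨nat_lit 48058, nat_lit 2⟩, ⟨nat_lit 44303, nat_lit 2⟩, ⟨nat_lit 49840, nat_lit 0⟩, ⟨nat_lit 49840, nat_lit 1⟩,
  ⟨nat_lit 54512, nat_lit 2⟩, ⟨nat_lit 50253, nat_lit 1⟩, ⟨nat_lit 49467, nat_lit 0⟩, ⟨nat_lit 45602, nat_lit 2⟩,
  ⟨nat_lit 45602, nat_lit 2⟩, ⟨nat_lit 45602, nat_lit 1⟩, ⟨nat_lit 45602, nat_lit 1⟩, ⟨nat_lit 47027, nat_lit 2⟩,
  ⟨nat_lit 44087, nat_lit 2⟩, ⟨nat_lit 49597, nat_lit 0⟩, ⟨nat_lit 51146, nat_lit 1⟩, ⟨nat_lit 52744, nat_lit 2⟩,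
  ⟨nat_lit 48623, nat_lit 1⟩, ⟨nat_lit 51661, nat_lit 0⟩, ⟨nat_lit 46010, nat_lit 2⟩]

theorem c_8_3 :
    chunk pc_8 ents cmps_8 cls_8_3 (nat_lit 7055694) (nat_lit 8894846) = true := by
  decide +kernel

end Vale.Agent.P030.V1
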