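import Vale.Agent.P030.V1.Ents
import Vale.Agent.P030.V1.Pc

/-!
# P030, route N: wall checks in the kernel, module 5
-/

namespace Vale.Agent.P030.V1

open Vale.Agent.P030.H532 Vale.Agent.P030.H440.Bd

/-- cells of piece 8, part 4 -/
def cls_8_4 : List Cell := [
  ⟨nat_lit 46010, nat_lit 2⟩, ⟨nat_lit 57512, nat_lit 0⟩, ⟨nat_lit 51221, nat_lit 1⟩, ⟨nat_lit 51221, nat_lit 2⟩,
  ⟨nat_lit 48819, nat_lit 1⟩, ⟨nat_lit 53395, nat_lit 0⟩, ⟨nat_lit 47554, nat_lit 2⟩, ⟨nat_lit 45324, nat_lit 2⟩,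
  ⟨nat_lit 60903, nat_lit 0⟩, ⟨nat_lit 48531, nat_lit 1⟩, ⟨nat_lit 51564, nat_lit 2⟩, ⟨nat_lit 49146, nat_lit 0⟩,
  ⟨nat_lit 52217, nat_lit 0⟩, ⟨nat_lit 48953, nat_lit 2⟩, ⟨nat_lit 45128, nat_lit 2⟩, ⟨nat_lit 63461, nat_lit 0⟩,
  ⟨nat_lit 47595, nat_lit 1⟩, ⟨nat_lit 50569, nat_lit 2⟩, ⟨nat_lit 50569, nat_lit 0⟩]

theorem c_8_4 :
    chunk pc_8 ents cmps_8 cls_8_4 (nat_lit 8894846) (nat_lit 10834230) = true := by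
  decide +kernel

/-- cells of piece 8, part 5 -/
def cls_8_5 : List Cell := [
  ⟨nat_lit 52149, nat_lit 0⟩, ⟨nat_lit 49704, nat_lit 2⟩, ⟨nat_lit 45820, nat_lit 1⟩, ⟨nat_lit 65866, nat_lit 0⟩,
  ⟨nat_lit 47340, nat_lit 1⟩, ⟨nat_lit 51777, nat_lit 2⟩, ⟨nat_lit 51777, nat_lit 0⟩, ⟨nat_lit 53395, nat_lit 0⟩,
  ⟨nat_lit 51726, nat_lit 2⟩, ⟨nat_lit 47684, nat_lit 1⟩, ⟨nat_lit 67055, nat_lit 0⟩, ⟨nat_lit 47147, nat_lit 1⟩,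
  ⟨nat_lit 51566, nat_lit 2⟩, ⟨nat_lit 54788, nat_lit 0⟩, ⟨nat_lit 52219, nat_lit 0⟩, ⟨nat_lit 53850, nat_lit 2⟩,
  ⟨nat_lit 51325, nat_lit 1⟩, ⟨nat_lit 65759, nat_lit 0⟩, ⟨nat_lit 47264, nat_lit 2⟩]

theorem c_8_5 :
    chunk pc_8 ents cmps_8 cls_8_5 (nat_lit 10834230) (nat_lit 12850652) = true := by
  decide +kernel

/-- cells of piece 8, part 6 -/
def cls_8_6 : List Cell := [
  ⟨nat_lit 51695, nat_lit 2⟩, ⟨nat_lit 56540, nat_lit 0⟩, ⟨nat_lit 53006, nat_lit 0⟩, ⟨nat_lit 56318, nat_lit 2⟩,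
  ⟨nat_lit 52798, nat_lit 1⟩, ⟨nat_lit 65997, nat_lit 0⟩, ⟨nat_lit 48465, nat_lit 2⟩, ⟨nat_lit 53008, nat_lit 2⟩,
  ⟨nat_lit 59634, nat_lit 0⟩, ⟨nat_lit 54042, nat_lit 1⟩, ⟨nat_lit 59108, nat_lit 2⟩, ⟨nat_lit 57260, nat_lit 1⟩,
  ⟨nat_lit 64417, nat_lit 0⟩, ⟨nat_lit 52338, nat_lit 2⟩, ⟨nat_lit 52338, nat_lit 2⟩, ⟨nat_lit 63786, nat_lit 0⟩,
  ⟨nat_lit 57805, nat_lit 1⟩, ⟨nat_lit 61417, nat_lit 2⟩, ⟨nat_lit 56618, nat_lit 1⟩]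

theorem c_8_6 :
    chunk pc_8 ents cmps_8 cls_8_6 (nat_lit 12850652) (nat_lit 15003832) = true := by
  decide +kernel

/-- cells of piece 8, part 7 -/
def cls_8_7 : List Cell := [
  ⟨nat_lit 61925, nat_lit 0⟩, ⟨nat_lit 55151, nat_lit 2⟩, ⟨nat_lit 51704, nat_lit 2⟩, ⟨nat_lit 67861, nat_lit 0⟩,
  ⟨nat_lit 57257, nat_lit 1⟩, ⟨nat_lit 60835, nat_lit 2⟩, ⟨nat_lit 57032, nat_lit 1⟩, ⟨nat_lit 65943, nat_lit 0⟩,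
  ⟨nat_lit 80367, nat_lit 1⟩, ⟨nat_lit 67809, nat_lit 0⟩, ⟨nat_lit 54034, nat_lit 0⟩, ⟨nat_lit 46434, nat_lit 2⟩,
  ⟨nat_lit 37001, nat_lit 2⟩, ⟨nat_lit 37001, nat_lit 0⟩, ⟨nat_lit 17343, nat_lit 0⟩, ⟨nat_lit 13007, nat_lit 0⟩,
  ⟨nat_lit 23981, nat_lit 0⟩, ⟨nat_lit 27492, nat_lit 1⟩, ⟨nat_lit 4515, nat_lit 26⟩]

theorem c_8_7 :
    chunk pc_8 ents cmps_8 cls_8_7 (nat_lit 15003832) (nat_lit 16777216) = true := by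
  decide +kernel

/-- cells of piece 9, part 0 -/
def cls_9_0 : List Cell := [
  ⟨nat_lit 176128, nat_lit 3⟩, ⟨nat_lit 203648, nat_lit 1⟩, ⟨nat_lit 210012, nat_lit 1⟩, ⟨nat_lit 180478, nat_lit 2⟩,
  ⟨nat_lit 157918, nat_lit 3⟩, ⟨nat_lit 157918, nat_lit 2⟩, ⟨nat_lit 177657, nat_lit 0⟩, ⟨nat_lit 163777, nat_lit 1⟩,
  ⟨nat_lit 140745, nat_lit 3⟩, ⟨nat_lit 125350, nat_lit 3⟩, ⟨nat_lit 156687, nat_lit 1⟩, ⟨nat_lit 154238, nat_lit 1⟩,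
  ⟨nat_lit 120498, nat_lit 3⟩, ⟨nat_lit 114849, nat_lit 3⟩, ⟨nat_lit 136383, nat_lit 1⟩, ⟨nat_lit 129990, nat_lit 1⟩,
  ⟨nat_lit 103585, nat_lit 2⟩, ⟨nat_lit 103585, nat_lit 3⟩, ⟨nat_lit 119770, nat_lit 1⟩, ⟨nat_lit 116027, nat_lit 0⟩,
  ⟨nat_lit 94271, nat_lit 2⟩, ⟨nat_lit 91325, nat_lit 3⟩]

theorem c_9_0 :
    chunk pc_9 ents cmps_9 cls_9_0 (nat_lit 0) (nat_lit 6269678) = true := by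
  decide +kernel

end Vale.Agent.P030.V1
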