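import Vale.Agent.P030.V1.Ents
import Vale.Agent.P030.V1.Pc

/-!
# P030, route N: wall checks in the kernel, module 6
-/

namespace Vale.Agent.P030.V1

open Vale.Agent.P030.H532 Vale.Agent.P030.H440.Bd

/-- cells of piece 9, part 1 -/
def cls_9_1 : List Cell := [
  ⟨nat_lit 102740, nat_lit 1⟩, ⟨nat_lit 105950, nat_lit 0⟩, ⟨nat_lit 84428, nat_lit 2⟩, ⟨nat_lit 80470, nat_lit 3⟩,
  ⟨nat_lit 95557, nat_lit 1⟩, ⟨nat_lit 92570, nat_lit 0⟩, ⟨nat_lit 73765, nat_lit 2⟩, ⟨nat_lit 72612, nat_lit 2⟩,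
  ⟨nat_lit 81688, nat_lit 1⟩, ⟨nat_lit 81688, nat_lit 0⟩, ⟨nat_lit 66371, nat_lit 2⟩, ⟨nat_lit 66371, nat_lit 2⟩,
  ⟨nat_lit 72593, nat_lit 1⟩, ⟨nat_lit 72593, nat_lit 0⟩, ⟨nat_lit 58981, nat_lit 2⟩, ⟨nat_lit 58981, nat_lit 2⟩,
  ⟨nat_lit 64510, nat_lit 1⟩, ⟨nat_lit 64510, nat_lit 0⟩, ⟨nat_lit 54430, nat_lit 2⟩, ⟨nat_lit 54430, nat_lit 2⟩,
  ⟨nat_lit 57831, nat_lit 1⟩, ⟨nat_lit 57831, nat_lit 0⟩]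

theorem c_9_1 :
    chunk pc_9 ents cmps_9 cls_9_1 (nat_lit 6269678) (nat_lit 9511478) = true := by
  decide +kernel

/-- cells of piece 9, part 2 -/
def cls_9_2 : List Cell := [
  ⟨nat_lit 50602, nat_lit 2⟩, ⟨nat_lit 49811, nat_lit 2⟩, ⟨nat_lit 56037, nat_lit 0⟩, ⟨nat_lit 53409, nat_lit 1⟩,
  ⟨nat_lit 49235, nat_lit 2⟩, ⟨nat_lit 45387, nat_lit 2⟩, ⟨nat_lit 58151, nat_lit 0⟩, ⟨nat_lit 45430, nat_lit 1⟩,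
  ⟨nat_lit 45430, nat_lit 2⟩, ⟨nat_lit 48269, nat_lit 1⟩, ⟨nat_lit 49777, nat_lit 0⟩, ⟨nat_lit 39665, nat_lit 2⟩,
  ⟨nat_lit 40904, nat_lit 2⟩, ⟨nat_lit 43460, nat_lit 0⟩, ⟨nat_lit 41422, nat_lit 1⟩, ⟨nat_lit 40127, nat_lit 2⟩,
  ⟨nat_lit 34484, nat_lit 2⟩, ⟨nat_lit 47415, nat_lit 0⟩, ⟨nat_lit 35561, nat_lit 1⟩, ⟨nat_lit 36672, nat_lit 2⟩,
  ⟨nat_lit 36672, nat_lit 1⟩, ⟨nat_lit 38964, nat_lit 0⟩]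

theorem c_9_2 :
    chunk pc_9 ents cmps_9 cls_9_2 (nat_lit 9511478) (nat_lit 11485246) = true := by
  decide +kernel

/-- cells of piece 9, part 3 -/
def cls_9_3 : List Cell := [
  ⟨nat_lit 32875, nat_lit 2⟩, ⟨nat_lit 32361, nat_lit 2⟩, ⟨nat_lit 37417, nat_lit 0⟩, ⟨nat_lit 34493, nat_lit 1⟩,
  ⟨nat_lit 32876, nat_lit 2⟩, ⟨nat_lit 32876, nat_lit 1⟩, ⟨nat_lit 34930, nat_lit 0⟩, ⟨nat_lit 28380, nat_lit 2⟩,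
  ⟨nat_lit 28380, nat_lit 2⟩, ⟨nat_lit 31040, nat_lit 0⟩, ⟨nat_lit 29100, nat_lit 1⟩, ⟨nat_lit 29100, nat_lit 2⟩,
  ⟨nat_lit 25916, nat_lit 1⟩, ⟨nat_lit 34824, nat_lit 0⟩, ⟨nat_lit 23941, nat_lit 2⟩, ⟨nat_lit 26933, nat_lit 2⟩,
  ⟨nat_lit 26091, nat_lit 0⟩, ⟨nat_lit 26091, nat_lit 0⟩, ⟨nat_lit 25683, nat_lit 2⟩, ⟨nat_lit 22472, nat_lit 2⟩,
  ⟨nat_lit 30196, nat_lit 0⟩, ⟨nat_lit 23118, nat_lit 1⟩]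

theorem c_9_3 :
    chunk pc_9 ents cmps_9 cls_9_3 (nat_lit 11485246) (nat_lit 12783432) = true := by
  decide +kernel

/-- cells of piece 9, part 4 -/
def cls_9_4 : List Cell := [
  ⟨nat_lit 24562, nat_lit 2⟩, ⟨nat_lit 23410, nat_lit 1⟩, ⟨nat_lit 24873, nat_lit 0⟩, ⟨nat_lit 22540, nat_lit 2⟩,
  ⟨nat_lit 20074, nat_lit 2⟩, ⟨nat_lit 26346, nat_lit 0⟩, ⟨nat_lit 21405, nat_lit 1⟩, ⟨nat_lit 22073, nat_lit 2⟩,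
  ⟨nat_lit 21038, nat_lit 1⟩, ⟨nat_lit 22352, nat_lit 0⟩, ⟨nat_lit 20256, nat_lit 2⟩, ⟨nat_lit 18357, nat_lit 2⟩,
  ⟨nat_lit 24093, nat_lit 0⟩, ⟨nat_lit 19575, nat_lit 1⟩, ⟨nat_lit 20186, nat_lit 2⟩, ⟨nat_lit 18608, nat_lit 1⟩,
  ⟨nat_lit 19771, nat_lit 0⟩, ⟨nat_lit 17917, nat_lit 2⟩, ⟨nat_lit 16797, nat_lit 2⟩, ⟨nat_lit 21520, nat_lit 0⟩,
  ⟨nat_lit 18157, nat_lit 1⟩, ⟨nat_lit 18724, nat_lit 2⟩]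

theorem c_9_4 :
    chunk pc_9 ents cmps_9 cls_9_4 (nat_lit 12783432) (nat_lit 13708700) = true := by
  decide +kernel

/-- cells of piece 9, part 5 -/
def cls_9_5 : List Cell := [
  ⟨nat_lit 17260, nat_lit 1⟩, ⟨nat_lit 18338, nat_lit 0⟩, ⟨nat_lit 16618, nat_lit 2⟩, ⟨nat_lit 15059, nat_lit 2⟩,
  ⟨nat_lit 19764, nat_lit 0⟩, ⟨nat_lit 16058, nat_lit 1⟩, ⟨nat_lit 17061, nat_lit 2⟩, ⟨nat_lit 15727, nat_lit 1⟩,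
  ⟨nat_lit 16709, nat_lit 0⟩, ⟨nat_lit 15403, nat_lit 2⟩, ⟨nat_lit 13717, nat_lit 2⟩, ⟨nat_lit 18431, nat_lit 0⟩,
  ⟨nat_lit 14687, nat_lit 1⟩, ⟨nat_lit 15604, nat_lit 2⟩, ⟨nat_lit 14384, nat_lit 1⟩, ⟨nat_lit 15283, nat_lit 0⟩,
  ⟨nat_lit 14088, nat_lit 2⟩, ⟨nat_lit 12767, nat_lit 2⟩, ⟨nat_lit 17155, nat_lit 0⟩, ⟨nat_lit 13402, nat_lit 1⟩,
  ⟨nat_lit 14239, nat_lit 2⟩]

theorem c_9_5 :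
    chunk pc_9 ents cmps_9 cls_9_5 (nat_lit 13708700) (nat_lit 14372208) = true := by
  decide +kernel

end Vale.Agent.P030.V1
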