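import Vale.Agent.P030.V1.Ents
import Vale.Agent.P030.V1.Pc

/-!
# P030, route N: wall checks in the kernel, module 7
-/

namespace Vale.Agent.P030.V1

open Vale.Agent.P030.H532 Vale.Agent.P030.H440.Bd

/-- cells of piece 9, part 6 -/
def cls_9_6 : List Cell := [
  ⟨nat_lit 13349, nat_lit 1⟩, ⟨nat_lit 14183, nat_lit 0⟩, ⟨nat_lit 13074, nat_lit 2⟩, ⟨nat_lit 11847, nat_lit 2⟩,
  ⟨nat_lit 15918, nat_lit 0⟩, ⟨nat_lit 12435, nat_lit 1⟩, ⟨nat_lit 13212, nat_lit 2⟩, ⟨nat_lit 12386, nat_lit 1⟩,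
  ⟨nat_lit 13160, nat_lit 0⟩, ⟨nat_lit 12131, nat_lit 2⟩, ⟨nat_lit 10993, nat_lit 2⟩, ⟨nat_lit 14771, nat_lit 0⟩,
  ⟨nat_lit 11539, nat_lit 1⟩, ⟨nat_lit 12260, nat_lit 2⟩, ⟨nat_lit 11493, nat_lit 1⟩, ⟨nat_lit 12570, nat_lit 0⟩,
  ⟨nat_lit 11391, nat_lit 2⟩, ⟨nat_lit 10145, nat_lit 2⟩, ⟨nat_lit 13949, nat_lit 0⟩, ⟨nat_lit 10679, nat_lit 1⟩,
  ⟨nat_lit 11346, nat_lit 2⟩]

theorem c_9_6 :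
    chunk pc_9 ents cmps_9 cls_9_6 (nat_lit 14372208) (nat_lit 14897870) = true := by
  decide +kernel

/-- cells of piece 9, part 7 -/
def cls_9_7 : List Cell := [
  ⟨nat_lit 10813, nat_lit 1⟩, ⟨nat_lit 11488, nat_lit 0⟩, ⟨nat_lit 10590, nat_lit 2⟩, ⟨nat_lit 9597, nat_lit 2⟩,
  ⟨nat_lit 12895, nat_lit 0⟩, ⟨nat_lit 10275, nat_lit 1⟩, ⟨nat_lit 10917, nat_lit 2⟩, ⟨nat_lit 10063, nat_lit 1⟩,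
  ⟨nat_lit 11005, nat_lit 0⟩, ⟨nat_lit 9973, nat_lit 2⟩, ⟨nat_lit 9037, nat_lit 2⟩, ⟨nat_lit 12425, nat_lit 0⟩,
  ⟨nat_lit 9512, nat_lit 1⟩, ⟨nat_lit 10106, nat_lit 2⟩, ⟨nat_lit 9632, nat_lit 0⟩, ⟨nat_lit 10234, nat_lit 0⟩,
  ⟨nat_lit 9594, nat_lit 2⟩, ⟨nat_lit 8394, nat_lit 1⟩, ⟨nat_lit 12066, nat_lit 0⟩, ⟨nat_lit 8672, nat_lit 1⟩,
  ⟨nat_lit 9485, nat_lit 2⟩]

theorem c_9_7 :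
    chunk pc_9 ents cmps_9 cls_9_7 (nat_lit 14897870) (nat_lit 15331416) = true := by
  decide +kernel

/-- cells of piece 9, part 8 -/
def cls_9_8 : List Cell := [
  ⟨nat_lit 9336, nat_lit 0⟩, ⟨nat_lit 9627, nat_lit 0⟩, ⟨nat_lit 9326, nat_lit 2⟩, ⟨nat_lit 8160, nat_lit 1⟩,
  ⟨nat_lit 11475, nat_lit 0⟩, ⟨nat_lit 7888, nat_lit 1⟩, ⟨nat_lit 8627, nat_lit 2⟩, ⟨nat_lit 8896, nat_lit 0⟩,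
  ⟨nat_lit 8896, nat_lit 0⟩, ⟨nat_lit 8757, nat_lit 2⟩, ⟨nat_lit 7798, nat_lit 1⟩, ⟨nat_lit 11209, nat_lit 0⟩,
  ⟨nat_lit 7530, nat_lit 1⟩, ⟨nat_lit 8235, nat_lit 2⟩, ⟨nat_lit 8492, nat_lit 0⟩, ⟨nat_lit 8492, nat_lit 0⟩,
  ⟨nat_lit 8359, nat_lit 2⟩, ⟨nat_lit 7575, nat_lit 1⟩, ⟨nat_lit 10415, nat_lit 0⟩, ⟨nat_lit 7160, nat_lit 1⟩,
  ⟨nat_lit 7831, nat_lit 2⟩]

theorem c_9_8 :
    chunk pc_9 ents cmps_9 cls_9_8 (nat_lit 15331416) (nat_lit 15699584) = true := by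
  decide +kernel

/-- cells of piece 9, part 9 -/
def cls_9_9 : List Cell := [
  ⟨nat_lit 8075, nat_lit 0⟩, ⟨nat_lit 8075, nat_lit 0⟩, ⟨nat_lit 7948, nat_lit 2⟩, ⟨nat_lit 7202, nat_lit 1⟩,
  ⟨nat_lit 10127, nat_lit 0⟩, ⟨nat_lit 6803, nat_lit 2⟩, ⟨nat_lit 7653, nat_lit 2⟩, ⟨nat_lit 7892, nat_lit 0⟩,
  ⟨nat_lit 7645, nat_lit 0⟩, ⟨nat_lit 7645, nat_lit 2⟩, ⟨nat_lit 7047, nat_lit 1⟩, ⟨nat_lit 9468, nat_lit 0⟩,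
  ⟨nat_lit 6509, nat_lit 2⟩, ⟨nat_lit 7118, nat_lit 2⟩, ⟨nat_lit 7562, nat_lit 0⟩, ⟨nat_lit 7207, nat_lit 0⟩,
  ⟨nat_lit 7432, nat_lit 2⟩, ⟨nat_lit 6735, nat_lit 1⟩, ⟨nat_lit 9049, nat_lit 0⟩, ⟨nat_lit 6220, nat_lit 2⟩,
  ⟨nat_lit 6997, nat_lit 2⟩]

theorem c_9_9 :
    chunk pc_9 ents cmps_9 cls_9_9 (nat_lit 15699584) (nat_lit 16020402) = true := by
  decide +kernel

/-- cells of piece 9, part 10 -/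
def cls_9_10 : List Cell := [
  ⟨nat_lit 7434, nat_lit 0⟩, ⟨nat_lit 6852, nat_lit 0⟩, ⟨nat_lit 7066, nat_lit 2⟩, ⟨nat_lit 6513, nat_lit 1⟩,
  ⟨nat_lit 8548, nat_lit 0⟩, ⟨nat_lit 6009, nat_lit 2⟩, ⟨nat_lit 6572, nat_lit 2⟩, ⟨nat_lit 6982, nat_lit 0⟩,
  ⟨nat_lit 6763, nat_lit 0⟩, ⟨nat_lit 6763, nat_lit 2⟩, ⟨nat_lit 6234, nat_lit 1⟩, ⟨nat_lit 8571, nat_lit 0⟩,
  ⟨nat_lit 5892, nat_lit 2⟩, ⟨nat_lit 6444, nat_lit 2⟩, ⟨nat_lit 6846, nat_lit 0⟩, ⟨nat_lit 6311, nat_lit 0⟩,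
  ⟨nat_lit 6508, nat_lit 2⟩, ⟨nat_lit 6101, nat_lit 1⟩, ⟨nat_lit 8197, nat_lit 0⟩, ⟨nat_lit 5762, nat_lit 2⟩,
  ⟨nat_lit 6122, nat_lit 2⟩]

theorem c_9_10 :
    chunk pc_9 ents cmps_9 cls_9_10 (nat_lit 16020402) (nat_lit 16305382) = true := by
  decide +kernel

end Vale.Agent.P030.V1
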