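import Vale.Agent.P030.V1.Ents
import Vale.Agent.P030.V1.Pc

/-!
# P030, route N: wall checks in the kernel, module 8
-/

namespace Vale.Agent.P030.V1

open Vale.Agent.P030.H532 Vale.Agent.P030.H440.Bd

/-- cells of piece 9, part 11 -/
def cls_9_11 : List Cell := [
  ⟨nat_lit 6504, nat_lit 0⟩, ⟨nat_lit 6198, nat_lit 0⟩, ⟨nat_lit 6391, nat_lit 2⟩, ⟨nat_lit 5891, nat_lit 1⟩,
  ⟨nat_lit 7731, nat_lit 0⟩, ⟨nat_lit 5435, nat_lit 2⟩, ⟨nat_lit 6114, nat_lit 2⟩, ⟨nat_lit 6305, nat_lit 0⟩,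
  ⟨nat_lit 6008, nat_lit 0⟩, ⟨nat_lit 6195, nat_lit 2⟩, ⟨nat_lit 5613, nat_lit 1⟩, ⟨nat_lit 7541, nat_lit 0⟩,
  ⟨nat_lit 5183, nat_lit 2⟩, ⟨nat_lit 5830, nat_lit 2⟩, ⟨nat_lit 6012, nat_lit 0⟩, ⟨nat_lit 5824, nat_lit 0⟩,
  ⟨nat_lit 5824, nat_lit 2⟩, ⟨nat_lit 5278, nat_lit 1⟩, ⟨nat_lit 7422, nat_lit 0⟩, ⟨nat_lit 5102, nat_lit 1⟩,
  ⟨nat_lit 5579, nat_lit 2⟩]

theorem c_9_11 :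
    chunk pc_9 ents cmps_9 cls_9_11 (nat_lit 16305382) (nat_lit 16561342) = true := by
  decide +kernel

/-- cells of piece 9, part 12 -/
def cls_9_12 : List Cell := [
  ⟨nat_lit 5579, nat_lit 0⟩, ⟨nat_lit 5753, nat_lit 0⟩, ⟨nat_lit 5573, nat_lit 2⟩, ⟨nat_lit 4876, nat_lit 1⟩,
  ⟨nat_lit 7009, nat_lit 0⟩, ⟨nat_lit 4927, nat_lit 1⟩, ⟨nat_lit 5388, nat_lit 2⟩, ⟨nat_lit 5219, nat_lit 1⟩,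
  ⟨nat_lit 5545, nat_lit 0⟩, ⟨nat_lit 5198, nat_lit 2⟩, ⟨nat_lit 4548, nat_lit 2⟩, ⟨nat_lit 6111, nat_lit 0⟩,
  ⟨nat_lit 4678, nat_lit 1⟩, ⟨nat_lit 4678, nat_lit 2⟩, ⟨nat_lit 4385, nat_lit 1⟩, ⟨nat_lit 5892, nat_lit 0⟩,
  ⟨nat_lit 6444, nat_lit 0⟩, ⟨nat_lit 5235, nat_lit 0⟩, ⟨nat_lit 4498, nat_lit 1⟩, ⟨nat_lit 3654, nat_lit 2⟩,
  ⟨nat_lit 2747, nat_lit 2⟩]

theorem c_9_12 :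
    chunk pc_9 ents cmps_9 cls_9_12 (nat_lit 16561342) (nat_lit 16777216) = true := by
  decide +kernel

/-- cells of piece 10, part 0 -/
def cls_10_0 : List Cell := [
  ⟨nat_lit 1248, nat_lit 1⟩, ⟨nat_lit 916, nat_lit 2⟩, ⟨nat_lit 1030, nat_lit 2⟩, ⟨nat_lit 1802, nat_lit 1⟩,
  ⟨nat_lit 2252, nat_lit 0⟩, ⟨nat_lit 1618, nat_lit 1⟩, ⟨nat_lit 1870, nat_lit 2⟩, ⟨nat_lit 2103, nat_lit 1⟩,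
  ⟨nat_lit 2168, nat_lit 0⟩, ⟨nat_lit 2066, nat_lit 2⟩, ⟨nat_lit 1936, nat_lit 2⟩, ⟨nat_lit 2420, nat_lit 0⟩,
  ⟨nat_lit 2192, nat_lit 1⟩, ⟨nat_lit 2397, nat_lit 2⟩, ⟨nat_lit 2359, nat_lit 1⟩, ⟨nat_lit 2506, nat_lit 0⟩,
  ⟨nat_lit 2270, nat_lit 2⟩, ⟨nat_lit 2270, nat_lit 2⟩, ⟨nat_lit 2766, nat_lit 0⟩, ⟨nat_lit 2636, nat_lit 1⟩,
  ⟨nat_lit 2718, nat_lit 2⟩]

theorem c_10_0 :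
    chunk pc_10 ents cmps_10 cls_10_0 (nat_lit 0) (nat_lit 87086) = true := by
  decide +kernel

/-- cells of piece 10, part 1 -/
def cls_10_1 : List Cell := [
  ⟨nat_lit 2718, nat_lit 1⟩, ⟨nat_lit 2972, nat_lit 0⟩, ⟨nat_lit 2600, nat_lit 2⟩, ⟨nat_lit 2681, nat_lit 2⟩,
  ⟨nat_lit 3267, nat_lit 0⟩, ⟨nat_lit 3011, nat_lit 1⟩, ⟨nat_lit 3199, nat_lit 2⟩, ⟨nat_lit 3049, nat_lit 1⟩,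
  ⟨nat_lit 3334, nat_lit 0⟩, ⟨nat_lit 2969, nat_lit 2⟩, ⟨nat_lit 3061, nat_lit 2⟩, ⟨nat_lit 3826, nat_lit 0⟩,
  ⟨nat_lit 3406, nat_lit 1⟩, ⟨nat_lit 3618, nat_lit 2⟩, ⟨nat_lit 3561, nat_lit 1⟩, ⟨nat_lit 3894, nat_lit 0⟩,
  ⟨nat_lit 3467, nat_lit 2⟩, ⟨nat_lit 3575, nat_lit 2⟩, ⟨nat_lit 4356, nat_lit 0⟩, ⟨nat_lit 4015, nat_lit 1⟩,
  ⟨nat_lit 4265, nat_lit 2⟩]

theorem c_10_1 :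
    chunk pc_10 ents cmps_10 cls_10_1 (nat_lit 87086) (nat_lit 228774) = true := by
  decide +kernel

/-- cells of piece 10, part 2 -/
def cls_10_2 : List Cell := [
  ⟨nat_lit 4131, nat_lit 1⟩, ⟨nat_lit 4518, nat_lit 0⟩, ⟨nat_lit 4023, nat_lit 2⟩, ⟨nat_lit 4148, nat_lit 2⟩,
  ⟨nat_lit 4925, nat_lit 0⟩, ⟨nat_lit 4848, nat_lit 1⟩, ⟨nat_lit 4848, nat_lit 2⟩, ⟨nat_lit 4848, nat_lit 1⟩,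
  ⟨nat_lit 5605, nat_lit 0⟩, ⟨nat_lit 4553, nat_lit 2⟩, ⟨nat_lit 5122, nat_lit 2⟩, ⟨nat_lit 5282, nat_lit 1⟩,
  ⟨nat_lit 5447, nat_lit 0⟩, ⟨nat_lit 5617, nat_lit 2⟩, ⟨nat_lit 5353, nat_lit 2⟩, ⟨nat_lit 6858, nat_lit 0⟩,
  ⟨nat_lit 6107, nat_lit 1⟩, ⟨nat_lit 6297, nat_lit 2⟩, ⟨nat_lit 6690, nat_lit 1⟩, ⟨nat_lit 7108, nat_lit 0⟩,
  ⟨nat_lit 6330, nat_lit 2⟩]

theorem c_10_2 :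
    chunk pc_10 ents cmps_10 cls_10_2 (nat_lit 228774) (nat_lit 454090) = true := by
  decide +kernel

end Vale.Agent.P030.V1
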