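import Vale.Agent.P030.V1.Ents
import Vale.Agent.P030.V1.Pc

/-!
# P030, route N: wall checks in the kernel, module 9
-/

namespace Vale.Agent.P030.V1

open Vale.Agent.P030.H532 Vale.Agent.P030.H440.Bd

/-- cells of piece 10, part 3 -/
def cls_10_3 : List Cell := [
  ⟨nat_lit 6725, nat_lit 2⟩, ⟨nat_lit 7145, nat_lit 1⟩, ⟨nat_lit 7368, nat_lit 0⟩, ⟨nat_lit 7252, nat_lit 2⟩,
  ⟨nat_lit 7138, nat_lit 2⟩, ⟨nat_lit 8253, nat_lit 0⟩, ⟨nat_lit 8510, nat_lit 1⟩, ⟨nat_lit 8111, nat_lit 2⟩,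
  ⟨nat_lit 8111, nat_lit 2⟩, ⟨nat_lit 9631, nat_lit 0⟩, ⟨nat_lit 9631, nat_lit 1⟩, ⟨nat_lit 9029, nat_lit 2⟩,
  ⟨nat_lit 9593, nat_lit 2⟩, ⟨nat_lit 11691, nat_lit 0⟩, ⟨nat_lit 10411, nat_lit 1⟩, ⟨nat_lit 10248, nat_lit 3⟩,
  ⟨nat_lit 10568, nat_lit 2⟩, ⟨nat_lit 13210, nat_lit 0⟩, ⟨nat_lit 11764, nat_lit 1⟩, ⟨nat_lit 11764, nat_lit 3⟩,
  ⟨nat_lit 12499, nat_lit 2⟩]

theorem c_10_3 :
    chunk pc_10 ents cmps_10 cls_10_3 (nat_lit 454090) (nat_lit 851394) = true := by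
  decide +kernel

/-- cells of piece 10, part 4 -/
def cls_10_4 : List Cell := [
  ⟨nat_lit 14451, nat_lit 0⟩, ⟨nat_lit 14451, nat_lit 1⟩, ⟨nat_lit 13547, nat_lit 3⟩, ⟨nat_lit 13123, nat_lit 3⟩,
  ⟨nat_lit 17223, nat_lit 1⟩, ⟨nat_lit 18299, nat_lit 1⟩, ⟨nat_lit 14867, nat_lit 3⟩, ⟨nat_lit 16260, nat_lit 3⟩,
  ⟨nat_lit 18800, nat_lit 1⟩, ⟨nat_lit 21737, nat_lit 1⟩, ⟨nat_lit 19019, nat_lit 2⟩, ⟨nat_lit 18721, nat_lit 4⟩,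
  ⟨nat_lit 19891, nat_lit 3⟩, ⟨nat_lit 26727, nat_lit 1⟩, ⟨nat_lit 25056, nat_lit 1⟩, ⟨nat_lit 21924, nat_lit 3⟩,
  ⟨nat_lit 23979, nat_lit 4⟩, ⟨nat_lit 26226, nat_lit 3⟩, ⟨nat_lit 34421, nat_lit 1⟩, ⟨nat_lit 31731, nat_lit 2⟩,
  ⟨nat_lit 27268, nat_lit 4⟩]

theorem c_10_4 :
    chunk pc_10 ents cmps_10 cls_10_4 (nat_lit 851394) (nat_lit 1726836) = true := by
  decide +kernel

/-- cells of piece 10, part 5 -/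
def cls_10_5 : List Cell := [
  ⟨nat_lit 29824, nat_lit 5⟩, ⟨nat_lit 30756, nat_lit 4⟩, ⟨nat_lit 39406, nat_lit 2⟩, ⟨nat_lit 40637, nat_lit 1⟩,
  ⟨nat_lit 38732, nat_lit 3⟩, ⟨nat_lit 35100, nat_lit 5⟩, ⟨nat_lit 38390, nat_lit 6⟩, ⟨nat_lit 44387, nat_lit 5⟩,
  ⟨nat_lit 54096, nat_lit 3⟩, ⟨nat_lit 64239, nat_lit 2⟩, ⟨nat_lit 60224, nat_lit 3⟩, ⟨nat_lit 54578, nat_lit 5⟩,
  ⟨nat_lit 52019, nat_lit 7⟩, ⟨nat_lit 55270, nat_lit 8⟩, ⟨nat_lit 56997, nat_lit 7⟩, ⟨nat_lit 65902, nat_lit 5⟩,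
  ⟨nat_lit 76198, nat_lit 3⟩, ⟨nat_lit 80960, nat_lit 3⟩, ⟨nat_lit 80960, nat_lit 4⟩, ⟨nat_lit 80960, nat_lit 6⟩]

theorem c_10_5 :
    chunk pc_10 ents cmps_10 cls_10_5 (nat_lit 1726836) (nat_lit 3886106) = true := by
  decide +kernel

/-- cells of piece 10, part 6 -/
def cls_10_6 : List Cell := [
  ⟨nat_lit 77165, nat_lit 7⟩, ⟨nat_lit 81987, nat_lit 9⟩, ⟨nat_lit 87111, nat_lit 10⟩, ⟨nat_lit 95277, nat_lit 9⟩,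
  ⟨nat_lit 104208, nat_lit 7⟩, ⟨nat_lit 120490, nat_lit 6⟩, ⟨nat_lit 135551, nat_lit 5⟩, ⟨nat_lit 152494, nat_lit 5⟩,
  ⟨nat_lit 176320, nat_lit 5⟩, ⟨nat_lit 214890, nat_lit 5⟩, ⟨nat_lit 261896, nat_lit 5⟩, ⟨nat_lit 311001, nat_lit 5⟩,
  ⟨nat_lit 369313, nat_lit 6⟩, ⟨nat_lit 392395, nat_lit 5⟩, ⟨nat_lit 465968, nat_lit 4⟩, ⟨nat_lit 524214, nat_lit 4⟩,
  ⟨nat_lit 638885, nat_lit 4⟩, ⟨nat_lit 818571, nat_lit 4⟩, ⟨nat_lit 987109, nat_lit 4⟩, ⟨nat_lit 430710, nat_lit 16⟩]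

theorem c_10_6 :
    chunk pc_10 ents cmps_10 cls_10_6 (nat_lit 3886106) (nat_lit 16777216) = true := by
  decide +kernel

/-- cells of piece 11, part 0 -/
def cls_11_0 : List Cell := [
  ⟨nat_lit 14336, nat_lit 6⟩, ⟨nat_lit 13440, nat_lit 6⟩, ⟨nat_lit 15120, nat_lit 5⟩, ⟨nat_lit 18900, nat_lit 3⟩,
  ⟨nat_lit 18900, nat_lit 3⟩, ⟨nat_lit 15946, nat_lit 4⟩, ⟨nat_lit 15946, nat_lit 5⟩, ⟨nat_lit 18437, nat_lit 5⟩,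
  ⟨nat_lit 20741, nat_lit 2⟩, ⟨nat_lit 16851, nat_lit 3⟩, ⟨nat_lit 15007, nat_lit 3⟩, ⟨nat_lit 15475, nat_lit 3⟩,
  ⟨nat_lit 20310, nat_lit 3⟩, ⟨nat_lit 25387, nat_lit 3⟩, ⟨nat_lit 20229, nat_lit 2⟩, ⟨nat_lit 17383, nat_lit 2⟩,
  ⟨nat_lit 17926, nat_lit 2⟩, ⟨nat_lit 20166, nat_lit 3⟩, ⟨nat_lit 23316, nat_lit 3⟩, ⟨nat_lit 22951, nat_lit 2⟩,
  ⟨nat_lit 21157, nat_lit 2⟩]

theorem c_11_0 :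
    chunk pc_11 ents cmps_11 cls_11_0 (nat_lit 0) (nat_lit 775848) = true := by
  decide +kernel

end Vale.Agent.P030.V1
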