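import Vale.Agent.P030.V1.Ents
import Vale.Agent.P030.V1.Pc

/-!
# P030, route N: wall checks in the kernel, module 10
-/

namespace Vale.Agent.P030.V1

open Vale.Agent.P030.H532 Vale.Agent.P030.H440.Bd

/-- cells of piece 11, part 1 -/
def cls_11_1 : List Cell := [
  ⟨nat_lit 20826, nat_lit 2⟩, ⟨nat_lit 21476, nat_lit 2⟩, ⟨nat_lit 26173, nat_lit 3⟩, ⟨nat_lit 24946, nat_lit 2⟩,
  ⟨nat_lit 23776, nat_lit 1⟩, ⟨nat_lit 22661, nat_lit 1⟩, ⟨nat_lit 25493, nat_lit 2⟩, ⟨nat_lit 28679, nat_lit 3⟩,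
  ⟨nat_lit 26438, nat_lit 2⟩, ⟨nat_lit 26024, nat_lit 1⟩, ⟨nat_lit 24803, nat_lit 2⟩, ⟨nat_lit 27128, nat_lit 2⟩,
  ⟨nat_lit 27128, nat_lit 2⟩, ⟨nat_lit 28823, nat_lit 1⟩, ⟨nat_lit 28823, nat_lit 1⟩, ⟨nat_lit 28823, nat_lit 2⟩,
  ⟨nat_lit 28823, nat_lit 2⟩, ⟨nat_lit 27471, nat_lit 1⟩, ⟨nat_lit 30904, nat_lit 1⟩, ⟨nat_lit 28972, nat_lit 2⟩,
  ⟨nat_lit 29877, nat_lit 2⟩]

theorem c_11_1 :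
    chunk pc_11 ents cmps_11 cls_11_1 (nat_lit 775848) (nat_lit 1891982) = true := by
  decide +kernel

/-- cells of piece 11, part 2 -/
def cls_11_2 : List Cell := [
  ⟨nat_lit 28943, nat_lit 1⟩, ⟨nat_lit 30751, nat_lit 1⟩, ⟨nat_lit 27868, nat_lit 2⟩, ⟨nat_lit 30480, nat_lit 2⟩,
  ⟨nat_lit 29051, nat_lit 2⟩, ⟨nat_lit 30866, nat_lit 1⟩, ⟨nat_lit 28453, nat_lit 1⟩, ⟨nat_lit 30231, nat_lit 2⟩,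
  ⟨nat_lit 30231, nat_lit 2⟩, ⟨nat_lit 32120, nat_lit 1⟩, ⟨nat_lit 31618, nat_lit 1⟩, ⟨nat_lit 30629, nat_lit 2⟩,
  ⟨nat_lit 30150, nat_lit 2⟩, ⟨nat_lit 32034, nat_lit 1⟩, ⟨nat_lit 31533, nat_lit 1⟩, ⟨nat_lit 30054, nat_lit 2⟩,
  ⟨nat_lit 29114, nat_lit 2⟩, ⟨nat_lit 32753, nat_lit 1⟩, ⟨nat_lit 32753, nat_lit 1⟩, ⟨nat_lit 28658, nat_lit 2⟩,
  ⟨nat_lit 28210, nat_lit 2⟩]

theorem c_11_2 :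
    chunk pc_11 ents cmps_11 cls_11_2 (nat_lit 1891982) (nat_lit 3164982) = true := by
  decide +kernel

/-- cells of piece 11, part 3 -/
def cls_11_3 : List Cell := [
  ⟨nat_lit 31736, nat_lit 1⟩, ⟨nat_lit 32727, nat_lit 1⟩, ⟨nat_lit 31192, nat_lit 2⟩, ⟨nat_lit 29729, nat_lit 2⟩,
  ⟨nat_lit 31587, nat_lit 1⟩, ⟨nat_lit 31587, nat_lit 1⟩, ⟨nat_lit 19247, nat_lit 1⟩, ⟨nat_lit 12931, nat_lit 1⟩,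
  ⟨nat_lit 12931, nat_lit 2⟩, ⟨nat_lit 16971, nat_lit 2⟩, ⟨nat_lit 25456, nat_lit 2⟩, ⟨nat_lit 27047, nat_lit 1⟩,
  ⟨nat_lit 22820, nat_lit 2⟩, ⟨nat_lit 24246, nat_lit 3⟩, ⟨nat_lit 27276, nat_lit 3⟩, ⟨nat_lit 34095, nat_lit 1⟩,
  ⟨nat_lit 33029, nat_lit 1⟩, ⟨nat_lit 33029, nat_lit 2⟩, ⟨nat_lit 32512, nat_lit 2⟩, ⟨nat_lit 32512, nat_lit 1⟩,
  ⟨nat_lit 33528, nat_lit 1⟩]

theorem c_11_3 :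
    chunk pc_11 ents cmps_11 cls_11_3 (nat_lit 3164982) (nat_lit 4317358) = true := by
  decide +kernel

/-- cells of piece 11, part 4 -/
def cls_11_4 : List Cell := [
  ⟨nat_lit 31956, nat_lit 2⟩, ⟨nat_lit 31456, nat_lit 2⟩, ⟨nat_lit 32439, nat_lit 1⟩, ⟨nat_lit 33452, nat_lit 1⟩,
  ⟨nat_lit 33452, nat_lit 2⟩, ⟨nat_lit 30315, nat_lit 2⟩, ⟨nat_lit 31262, nat_lit 1⟩, ⟨nat_lit 33215, nat_lit 1⟩,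
  ⟨nat_lit 34252, nat_lit 2⟩, ⟨nat_lit 29970, nat_lit 2⟩, ⟨nat_lit 31843, nat_lit 1⟩, ⟨nat_lit 31843, nat_lit 1⟩,
  ⟨nat_lit 34828, nat_lit 2⟩, ⟨nat_lit 29929, nat_lit 1⟩, ⟨nat_lit 31799, nat_lit 0⟩, ⟨nat_lit 31799, nat_lit 1⟩,
  ⟨nat_lit 35773, nat_lit 2⟩, ⟨nat_lit 31301, nat_lit 1⟩, ⟨nat_lit 32279, nat_lit 1⟩, ⟨nat_lit 30261, nat_lit 1⟩,
  ⟨nat_lit 35934, nat_lit 2⟩]

theorem c_11_4 :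
    chunk pc_11 ents cmps_11 cls_11_4 (nat_lit 4317358) (nat_lit 5676074) = true := by
  decide +kernel

/-- cells of piece 11, part 5 -/
def cls_11_5 : List Cell := [
  ⟨nat_lit 33126, nat_lit 1⟩, ⟨nat_lit 31572, nat_lit 1⟩, ⟨nat_lit 30585, nat_lit 2⟩, ⟨nat_lit 35363, nat_lit 2⟩,
  ⟨nat_lit 34257, nat_lit 1⟩, ⟨nat_lit 33186, nat_lit 1⟩, ⟨nat_lit 34223, nat_lit 2⟩, ⟨nat_lit 32084, nat_lit 2⟩,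
  ⟨nat_lit 32084, nat_lit 1⟩, ⟨nat_lit 34089, nat_lit 1⟩, ⟨nat_lit 36219, nat_lit 2⟩, ⟨nat_lit 29993, nat_lit 2⟩,
  ⟨nat_lit 31867, nat_lit 1⟩, ⟨nat_lit 31867, nat_lit 1⟩, ⟨nat_lit 37841, nat_lit 2⟩, ⟨nat_lit 31927, nat_lit 1⟩,
  ⟨nat_lit 31428, nat_lit 1⟩, ⟨nat_lit 31428, nat_lit 1⟩, ⟨nat_lit 37320, nat_lit 2⟩, ⟨nat_lit 33238, nat_lit 1⟩,
  ⟨nat_lit 32718, nat_lit 1⟩]

theorem c_11_5 :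
    chunk pc_11 ents cmps_11 cls_11_5 (nat_lit 5676074) (nat_lit 7068904) = true := by
  decide +kernel

end Vale.Agent.P030.V1
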