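import Vale.Agent.P030.V1.Ents
import Vale.Agent.P030.V1.Pc

/-!
# P030, route N: wall checks in the kernel, module 11
-/

namespace Vale.Agent.P030.V1

open Vale.Agent.P030.H532 Vale.Agent.P030.H440.Bd

/-- cells of piece 11, part 6 -/
def cls_11_6 : List Cell := [
  ⟨nat_lit 31695, nat_lit 2⟩, ⟨nat_lit 34665, nat_lit 2⟩, ⟨nat_lit 33581, nat_lit 1⟩, ⟨nat_lit 33056, nat_lit 1⟩,
  ⟨nat_lit 34089, nat_lit 2⟩, ⟨nat_lit 33023, nat_lit 2⟩, ⟨nat_lit 33023, nat_lit 1⟩, ⟨nat_lit 34054, nat_lit 1⟩,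
  ⟨nat_lit 37246, nat_lit 2⟩, ⟨nat_lit 32008, nat_lit 1⟩, ⟨nat_lit 32008, nat_lit 1⟩, ⟨nat_lit 33008, nat_lit 1⟩,
  ⟨nat_lit 40228, nat_lit 2⟩, ⟨nat_lit 32685, nat_lit 1⟩, ⟨nat_lit 32685, nat_lit 1⟩, ⟨nat_lit 32174, nat_lit 1⟩,
  ⟨nat_lit 37200, nat_lit 2⟩, ⟨nat_lit 34293, nat_lit 1⟩, ⟨nat_lit 33221, nat_lit 1⟩, ⟨nat_lit 32701, nat_lit 2⟩,
  ⟨nat_lit 35766, nat_lit 2⟩]

theorem c_11_6 :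
    chunk pc_11 ents cmps_11 cls_11_6 (nat_lit 7068904) (nat_lit 8493722) = true := by
  decide +kernel

/-- cells of piece 11, part 7 -/
def cls_11_7 : List Cell := [
  ⟨nat_lit 35207, nat_lit 1⟩, ⟨nat_lit 35207, nat_lit 1⟩, ⟨nat_lit 36307, nat_lit 2⟩, ⟨nat_lit 33469, nat_lit 2⟩,
  ⟨nat_lit 33469, nat_lit 1⟩, ⟨nat_lit 35560, nat_lit 1⟩, ⟨nat_lit 38893, nat_lit 2⟩, ⟨nat_lit 33423, nat_lit 1⟩,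
  ⟨nat_lit 34467, nat_lit 1⟩, ⟨nat_lit 34467, nat_lit 1⟩, ⟨nat_lit 42006, nat_lit 2⟩, ⟨nat_lit 35442, nat_lit 1⟩,
  ⟨nat_lit 34334, nat_lit 1⟩, ⟨nat_lit 35406, nat_lit 1⟩, ⟨nat_lit 40937, nat_lit 2⟩, ⟨nat_lit 35819, nat_lit 1⟩,
  ⟨nat_lit 36938, nat_lit 1⟩, ⟨nat_lit 35783, nat_lit 2⟩, ⟨nat_lit 39137, nat_lit 2⟩, ⟨nat_lit 37913, nat_lit 1⟩,
  ⟨nat_lit 37913, nat_lit 1⟩]

theorem c_11_7 :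
    chunk pc_11 ents cmps_11 cls_11_7 (nat_lit 8493722) (nat_lit 10017916) = true := by
  decide +kernel

/-- cells of piece 11, part 8 -/
def cls_11_8 : List Cell := [
  ⟨nat_lit 39097, nat_lit 2⟩, ⟨nat_lit 37264, nat_lit 2⟩, ⟨nat_lit 38428, nat_lit 1⟩, ⟨nat_lit 37827, nat_lit 1⟩,
  ⟨nat_lit 43737, nat_lit 2⟩, ⟨nat_lit 37585, nat_lit 1⟩, ⟨nat_lit 37585, nat_lit 1⟩, ⟨nat_lit 38759, nat_lit 1⟩,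
  ⟨nat_lit 47236, nat_lit 2⟩, ⟨nat_lit 39117, nat_lit 1⟩, ⟨nat_lit 39117, nat_lit 1⟩, ⟨nat_lit 39117, nat_lit 1⟩,
  ⟨nat_lit 45228, nat_lit 2⟩, ⟨nat_lit 40987, nat_lit 1⟩, ⟨nat_lit 40987, nat_lit 1⟩, ⟨nat_lit 40346, nat_lit 2⟩,
  ⟨nat_lit 45389, nat_lit 2⟩, ⟨nat_lit 42552, nat_lit 1⟩, ⟨nat_lit 42552, nat_lit 1⟩, ⟨nat_lit 45211, nat_lit 2⟩,
  ⟨nat_lit 43798, nat_lit 2⟩]

theorem c_11_8 :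
    chunk pc_11 ents cmps_11 cls_11_8 (nat_lit 10017916) (nat_lit 11741754) = true := by
  decide +kernel

/-- cells of piece 11, part 9 -/
def cls_11_9 : List Cell := [
  ⟨nat_lit 43798, nat_lit 1⟩, ⟨nat_lit 43798, nat_lit 1⟩, ⟨nat_lit 47903, nat_lit 2⟩, ⟨nat_lit 44160, nat_lit 2⟩,
  ⟨nat_lit 45540, nat_lit 1⟩, ⟨nat_lit 45540, nat_lit 1⟩, ⟨nat_lit 54078, nat_lit 2⟩, ⟨nat_lit 46473, nat_lit 1⟩,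
  ⟨nat_lit 46473, nat_lit 1⟩, ⟨nat_lit 46473, nat_lit 1⟩, ⟨nat_lit 59543, nat_lit 2⟩, ⟨nat_lit 48378, nat_lit 1⟩,
  ⟨nat_lit 49889, nat_lit 1⟩, ⟨nat_lit 48329, nat_lit 1⟩, ⟨nat_lit 58900, nat_lit 2⟩, ⟨nat_lit 52457, nat_lit 1⟩,
  ⟨nat_lit 52457, nat_lit 1⟩, ⟨nat_lit 51637, nat_lit 2⟩, ⟨nat_lit 59704, nat_lit 2⟩, ⟨nat_lit 55039, nat_lit 1⟩,
  ⟨nat_lit 55039, nat_lit 1⟩]

theorem c_11_9 :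
    chunk pc_11 ents cmps_11 cls_11_9 (nat_lit 11741754) (nat_lit 13852970) = true := by
  decide +kernel

/-- cells of piece 11, part 10 -/
def cls_11_10 : List Cell := [
  ⟨nat_lit 58478, nat_lit 2⟩, ⟨nat_lit 60305, nat_lit 2⟩, ⟨nat_lit 60305, nat_lit 1⟩, ⟨nat_lit 60305, nat_lit 1⟩,
  ⟨nat_lit 64074, nat_lit 2⟩, ⟨nat_lit 64074, nat_lit 2⟩, ⟨nat_lit 64074, nat_lit 1⟩, ⟨nat_lit 62071, nat_lit 1⟩,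
  ⟨nat_lit 73708, nat_lit 2⟩, ⟨nat_lit 64494, nat_lit 2⟩, ⟨nat_lit 66509, nat_lit 1⟩, ⟨nat_lit 66509, nat_lit 1⟩,
  ⟨nat_lit 78979, nat_lit 2⟩, ⟨nat_lit 70340, nat_lit 2⟩, ⟨nat_lit 74736, nat_lit 1⟩, ⟨nat_lit 79407, nat_lit 1⟩,
  ⟨nat_lit 86850, nat_lit 2⟩, ⟨nat_lit 82778, nat_lit 1⟩, ⟨nat_lit 85364, nat_lit 1⟩, ⟨nat_lit 88701, nat_lit 1⟩,
  ⟨nat_lit 50062, nat_lit 6⟩]

theorem c_11_10 :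
    chunk pc_11 ents cmps_11 cls_11_10 (nat_lit 13852970) (nat_lit 16777216) = true := by
  decide +kernel

/-- cells of piece 12, part 0 -/
def cls_12_0 : List Cell := [
  ⟨nat_lit 311296, nat_lit 3⟩, ⟨nat_lit 389120, nat_lit 3⟩, ⟨nat_lit 437760, nat_lit 4⟩, ⟨nat_lit 492480, nat_lit 4⟩,
  ⟨nat_lit 569430, nat_lit 5⟩, ⟨nat_lit 640608, nat_lit 5⟩, ⟨nat_lit 700665, nat_lit 6⟩, ⟨nat_lit 853935, nat_lit 6⟩,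
  ⟨nat_lit 1067418, nat_lit 6⟩, ⟨nat_lit 1200845, nat_lit 6⟩, ⟨nat_lit 1388476, nat_lit 6⟩, ⟨nat_lit 1475255, nat_lit 6⟩,
  ⟨nat_lit 1751864, nat_lit 7⟩, ⟨nat_lit 2025592, nat_lit 7⟩, ⟨nat_lit 2278791, nat_lit 8⟩, ⟨nat_lit 2492427, nat_lit 8⟩,
  ⟨nat_lit 2803980, nat_lit 8⟩, ⟨nat_lit 3066852, nat_lit 8⟩, ⟨nat_lit 3833565, nat_lit 7⟩, ⟨nat_lit 4432559, nat_lit 8⟩,
  ⟨nat_lit 4848110, nat_lit 9⟩, ⟨nat_lit 5151116, nat_lit 10⟩, ⟨nat_lit 5634032, nat_lit 10⟩, ⟨nat_lit 5810095, nat_lit 11⟩]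

theorem c_12_0 :
    chunk pc_12 ents cmps_12 cls_12_0 (nat_lit 0) (nat_lit 107312542) = true := by
  decide +kernel

end Vale.Agent.P030.V1
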