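import Vale.Agent.P030.V1.Ents
import Vale.Agent.P030.V1.Pc

/-!
# P030, route N: wall checks in the kernel, module 12
-/

namespace Vale.Agent.P030.V1

open Vale.Agent.P030.H532 Vale.Agent.P030.H440.Bd

/-- cells of piece 12, part 1 -/
def cls_12_1 : List Cell := [
  ⟨nat_lit 6173225, nat_lit 12⟩, ⟨nat_lit 6559051, nat_lit 12⟩, ⟨nat_lit 7173961, nat_lit 13⟩, ⟨nat_lit 7622333, nat_lit 14⟩,
  ⟨nat_lit 8575124, nat_lit 13⟩, ⟨nat_lit 9914986, nat_lit 13⟩, ⟨nat_lit 11464202, nat_lit 13⟩, ⟨nat_lit 13613739, nat_lit 12⟩,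
  ⟨nat_lit 15740885, nat_lit 12⟩, ⟨nat_lit 19184203, nat_lit 11⟩, ⟨nat_lit 22781240, nat_lit 11⟩, ⟨nat_lit 23493153, nat_lit 12⟩,
  ⟨nat_lit 23126072, nat_lit 14⟩, ⟨nat_lit 22764727, nat_lit 17⟩, ⟨nat_lit 22409028, nat_lit 19⟩, ⟨nat_lit 22409028, nat_lit 21⟩,
  ⟨nat_lit 23109310, nat_lit 22⟩, ⟨nat_lit 24553641, nat_lit 23⟩, ⟨nat_lit 26855544, nat_lit 22⟩, ⟨nat_lit 29373251, nat_lit 22⟩,
  ⟨nat_lit 33962821, nat_lit 20⟩, ⟨nat_lit 40330849, nat_lit 19⟩, ⟨nat_lit 47110041, nat_lit 17⟩, ⟨nat_lit 14914227, nat_lit 64⟩]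

theorem c_12_1 :
    chunk pc_12 ents cmps_12 cls_12_1 (nat_lit 107312542) (nat_lit 1073741824) = true := by
  decide +kernel

/-- cells of piece 13, part 0 -/
def cls_13_0 : List Cell := [
  ⟨nat_lit 536870912, nat_lit 7640⟩]

theorem c_13_0 :
    chunk pc_13 ents cmps_13 cls_13_0 (nat_lit 0) (nat_lit 1073741824) = true := by
  decide +kernel

/-- cells of piece 14, part 0 -/
def cls_14_0 : List Cell := [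
  ⟨nat_lit 46137344, nat_lit 19⟩, ⟨nat_lit 42532864, nat_lit 19⟩, ⟨nat_lit 39209984, nat_lit 18⟩, ⟨nat_lit 36146704, nat_lit 18⟩,
  ⟨nat_lit 33322742, nat_lit 18⟩, ⟨nat_lit 30198734, nat_lit 18⟩, ⟨nat_lit 26895747, nat_lit 18⟩, ⟨nat_lit 23954024, nat_lit 18⟩,
  ⟨nat_lit 21708334, nat_lit 19⟩, ⟨nat_lit 19333984, nat_lit 19⟩, ⟨nat_lit 17219329, nat_lit 20⟩, ⟨nat_lit 15605016, nat_lit 20⟩,
  ⟨nat_lit 13898217, nat_lit 20⟩, ⟨nat_lit 12595258, nat_lit 21⟩, ⟨nat_lit 11217651, nat_lit 22⟩, ⟨nat_lit 9990719, nat_lit 22⟩,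
  ⟨nat_lit 9054089, nat_lit 23⟩, ⟨nat_lit 8205267, nat_lit 24⟩, ⟨nat_lit 7436022, nat_lit 24⟩, ⟨nat_lit 6855082, nat_lit 25⟩,
  ⟨nat_lit 6212417, nat_lit 25⟩, ⟨nat_lit 5727071, nat_lit 26⟩, ⟨nat_lit 5369129, nat_lit 26⟩, ⟨nat_lit 5033558, nat_lit 26⟩,
  ⟨nat_lit 4797609, nat_lit 25⟩, ⟨nat_lit 4647683, nat_lit 25⟩, ⟨nat_lit 4502442, nat_lit 24⟩, ⟨nat_lit 4502442, nat_lit 22⟩,
  ⟨nat_lit 4432091, nat_lit 21⟩, ⟨nat_lit 4432091, nat_lit 19⟩, ⟨nat_lit 4362839, nat_lit 18⟩, ⟨nat_lit 3885653, nat_lit 19⟩,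
  ⟨nat_lit 3399946, nat_lit 21⟩, ⟨nat_lit 3081200, nat_lit 22⟩, ⟨nat_lit 2744193, nat_lit 24⟩, ⟨nat_lit 2529802, nat_lit 25⟩,
  ⟨nat_lit 2292632, nat_lit 26⟩]

theorem c_14_0 :
    chunk pc_14 ents cmps_14 cls_14_0 (nat_lit 0) (nat_lit 1006939818) = true := by
  decide +kernel

/-- cells of piece 14, part 1 -/
def cls_14_1 : List Cell := [
  ⟨nat_lit 2113519, nat_lit 27⟩, ⟨nat_lit 1915376, nat_lit 27⟩, ⟨nat_lit 1795665, nat_lit 27⟩, ⟨nat_lit 1683435, nat_lit 27⟩,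
  ⟨nat_lit 1578220, nat_lit 27⟩, ⟨nat_lit 1479581, nat_lit 27⟩, ⟨nat_lit 1410225, nat_lit 27⟩, ⟨nat_lit 1322085, nat_lit 27⟩,
  ⟨nat_lit 1260111, nat_lit 26⟩, ⟨nat_lit 1181354, nat_lit 26⟩, ⟨nat_lit 1125977, nat_lit 25⟩, ⟨nat_lit 1073196, nat_lit 25⟩,
  ⟨nat_lit 1006121, nat_lit 24⟩, ⟨nat_lit 943238, nat_lit 24⟩, ⟨nat_lit 884285, nat_lit 24⟩, ⟨nat_lit 829017, nat_lit 24⟩,
  ⟨nat_lit 777203, nat_lit 24⟩, ⟨nat_lit 716483, nat_lit 24⟩, ⟨nat_lit 671702, nat_lit 24⟩, ⟨nat_lit 629720, nat_lit 24⟩,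
  ⟨nat_lit 580522, nat_lit 24⟩, ⟨nat_lit 544239, nat_lit 24⟩, ⟨nat_lit 510224, nat_lit 24⟩, ⟨nat_lit 478335, nat_lit 24⟩,
  ⟨nat_lit 448439, nat_lit 24⟩, ⟨nat_lit 427418, nat_lit 23⟩, ⟨nat_lit 400704, nat_lit 23⟩, ⟨nat_lit 381921, nat_lit 23⟩,
  ⟨nat_lit 364017, nat_lit 23⟩, ⟨nat_lit 341265, nat_lit 23⟩, ⟨nat_lit 314602, nat_lit 23⟩, ⟨nat_lit 299854, nat_lit 22⟩,
  ⟨nat_lit 281113, nat_lit 22⟩, ⟨nat_lit 263543, nat_lit 21⟩, ⟨nat_lit 251189, nat_lit 21⟩, ⟨nat_lit 235489, nat_lit 20⟩,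
  ⟨nat_lit 220770, nat_lit 20⟩]

theorem c_14_1 :
    chunk pc_14 ents cmps_14 cls_14_1 (nat_lit 1006939818) (nat_lit 1068420132) = true := by
  decide +kernel

/-- cells of piece 14, part 2 -/
def cls_14_2 : List Cell := [
  ⟨nat_lit 203521, nat_lit 20⟩, ⟨nat_lit 187620, nat_lit 20⟩, ⟨nat_lit 178824, nat_lit 19⟩, ⟨nat_lit 162059, nat_lit 19⟩,
  ⟨nat_lit 146865, nat_lit 19⟩, ⟨nat_lit 139980, nat_lit 18⟩, ⟨nat_lit 129043, nat_lit 17⟩, ⟨nat_lit 120977, nat_lit 17⟩,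
  ⟨nat_lit 117196, nat_lit 15⟩, ⟨nat_lit 108039, nat_lit 15⟩, ⟨nat_lit 101286, nat_lit 14⟩, ⟨nat_lit 94955, nat_lit 13⟩,
  ⟨nat_lit 86052, nat_lit 12⟩, ⟨nat_lit 79328, nat_lit 11⟩, ⟨nat_lit 73130, nat_lit 11⟩, ⟨nat_lit 66273, nat_lit 10⟩,
  ⟨nat_lit 61094, nat_lit 9⟩, ⟨nat_lit 55366, nat_lit 8⟩, ⟨nat_lit 50175, nat_lit 7⟩, ⟨nat_lit 46255, nat_lit 6⟩,
  ⟨nat_lit 44086, nat_lit 5⟩, ⟨nat_lit 39952, nat_lit 4⟩, ⟨nat_lit 33709, nat_lit 3⟩, ⟨nat_lit 30021, nat_lit 3⟩,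
  ⟨nat_lit 28613, nat_lit 4⟩, ⟨nat_lit 30401, nat_lit 4⟩, ⟨nat_lit 31351, nat_lit 5⟩, ⟨nat_lit 34289, nat_lit 5⟩,
  ⟨nat_lit 39646, nat_lit 5⟩, ⟨nat_lit 37787, nat_lit 3⟩, ⟨nat_lit 35425, nat_lit 2⟩, ⟨nat_lit 24907, nat_lit 1⟩,
  ⟨nat_lit 15176, nat_lit 2⟩, ⟨nat_lit 12330, nat_lit 2⟩, ⟨nat_lit 12678, nat_lit 2⟩, ⟨nat_lit 2437, nat_lit 24⟩]

theorem c_14_2 :
    chunk pc_14 ents cmps_14 cls_14_2 (nat_lit 1068420132) (nat_lit 1073741824) = true := by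
  decide +kernel

/-- cells of piece 15, part 0 -/
def cls_15_0 : List Cell := [
  ⟨nat_lit 10223616, nat_lit 3⟩, ⟨nat_lit 14376960, nat_lit 3⟩, ⟨nat_lit 14826240, nat_lit 4⟩, ⟨nat_lit 15752880, nat_lit 6⟩,
  ⟨nat_lit 15752880, nat_lit 8⟩, ⟨nat_lit 16245157, nat_lit 9⟩, ⟨nat_lit 17260479, nat_lit 10⟩, ⟨nat_lit 18339258, nat_lit 11⟩,
  ⟨nat_lit 20058563, nat_lit 11⟩, ⟨nat_lit 21939053, nat_lit 12⟩, ⟨nat_lit 24681434, nat_lit 12⟩, ⟨nat_lit 28537907, nat_lit 12⟩,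
  ⟨nat_lit 32996954, nat_lit 12⟩, ⟨nat_lit 38152727, nat_lit 12⟩, ⟨nat_lit 44114089, nat_lit 12⟩, ⟨nat_lit 49628350, nat_lit 12⟩,
  ⟨nat_lit 57382779, nat_lit 12⟩, ⟨nat_lit 58608366, nat_lit 13⟩, ⟨nat_lit 37993220, nat_lit 20⟩]

theorem c_15_0 :
    chunk pc_15 ents cmps_15 cls_15_0 (nat_lit 0) (nat_lit 1073741824) = true := by
  decide +kernel

/-- cells of piece 16, part 0 -/
def cls_16_0 : List Cell := [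
  ⟨nat_lit 536870912, nat_lit 66⟩]

theorem c_16_0 :
    chunk pc_16 ents cmps_16 cls_16_0 (nat_lit 0) (nat_lit 1073741824) = true := by
  decide +kernel

/-- cells of piece 17, part 0 -/
def cls_17_0 : List Cell := [
  ⟨nat_lit 352256, nat_lit 5⟩, ⟨nat_lit 302720, nat_lit 5⟩, ⟨nat_lit 274340, nat_lit 6⟩, ⟨nat_lit 274340, nat_lit 6⟩,
  ⟨nat_lit 300059, nat_lit 6⟩, ⟨nat_lit 337566, nat_lit 6⟩, ⟨nat_lit 348114, nat_lit 7⟩, ⟨nat_lit 380749, nat_lit 7⟩,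
  ⟨nat_lit 404545, nat_lit 8⟩, ⟨nat_lit 442471, nat_lit 9⟩, ⟨nat_lit 483952, nat_lit 10⟩, ⟨nat_lit 529322, nat_lit 11⟩,
  ⟨nat_lit 562404, nat_lit 12⟩, ⟨nat_lit 597554, nat_lit 13⟩, ⟨nat_lit 690921, nat_lit 13⟩, ⟨nat_lit 777286, nat_lit 13⟩,
  ⟨nat_lit 923026, nat_lit 12⟩, ⟨nat_lit 1096093, nat_lit 12⟩, ⟨nat_lit 1267357, nat_lit 12⟩, ⟨nat_lit 1425776, nat_lit 12⟩,
  ⟨nat_lit 1425776, nat_lit 14⟩, ⟨nat_lit 1425776, nat_lit 16⟩, ⟨nat_lit 1425776, nat_lit 18⟩, ⟨nat_lit 1381220, nat_lit 20⟩,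
  ⟨nat_lit 1424383, nat_lit 20⟩, ⟨nat_lit 1468894, nat_lit 21⟩, ⟨nat_lit 1606602, nat_lit 21⟩, ⟨nat_lit 1707014, nat_lit 21⟩,
  ⟨nat_lit 1867046, nat_lit 20⟩, ⟨nat_lit 2100426, nat_lit 20⟩, ⟨nat_lit 2297340, nat_lit 19⟩, ⟨nat_lit 2369131, nat_lit 19⟩,
  ⟨nat_lit 2369131, nat_lit 19⟩, ⟨nat_lit 2369131, nat_lit 20⟩, ⟨nat_lit 2517201, nat_lit 20⟩, ⟨nat_lit 2674526, nat_lit 20⟩,
  ⟨nat_lit 2758104, nat_lit 20⟩, ⟨nat_lit 2844294, nat_lit 21⟩]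

theorem c_17_0 :
    chunk pc_17 ents cmps_17 cls_17_0 (nat_lit 0) (nat_lit 95605244) = true := by
  decide +kernel

end Vale.Agent.P030.V1
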