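import Vale.Agent.P030.V1.Ents
import Vale.Agent.P030.V1.Pc

/-!
# P030, route N: wall checks in the kernel, module 13
-/

namespace Vale.Agent.P030.V1

open Vale.Agent.P030.H532 Vale.Agent.P030.H440.Bd

/-- cells of piece 17, part 1 -/
def cls_17_1 : List Cell := [
  ⟨nat_lit 2933178, nat_lit 21⟩, ⟨nat_lit 3391486, nat_lit 20⟩, ⟨nat_lit 4557309, nat_lit 15⟩, ⟨nat_lit 6408715, nat_lit 12⟩,
  ⟨nat_lit 8411437, nat_lit 9⟩, ⟨nat_lit 9200008, nat_lit 8⟩, ⟨nat_lit 9056257, nat_lit 10⟩, ⟨nat_lit 7782720, nat_lit 13⟩,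
  ⟨nat_lit 6688275, nat_lit 17⟩, ⟨nat_lit 6061248, nat_lit 20⟩, ⟨nat_lit 6250662, nat_lit 21⟩, ⟨nat_lit 7031994, nat_lit 20⟩,
  ⟨nat_lit 8789992, nat_lit 16⟩, ⟨nat_lit 10712802, nat_lit 13⟩, ⟨nat_lit 12721452, nat_lit 11⟩, ⟨nat_lit 12323906, nat_lit 12⟩,
  ⟨nat_lit 11168539, nat_lit 14⟩, ⟨nat_lit 9946979, nat_lit 17⟩, ⟨nat_lit 9791557, nat_lit 19⟩, ⟨nat_lit 10403529, nat_lit 19⟩,
  ⟨nat_lit 12354190, nat_lit 16⟩, ⟨nat_lit 15828805, nat_lit 12⟩, ⟨nat_lit 19291355, nat_lit 9⟩, ⟨nat_lit 21702774, nat_lit 8⟩,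
  ⟨nat_lit 20685456, nat_lit 9⟩, ⟨nat_lit 18099774, nat_lit 11⟩, ⟨nat_lit 15837302, nat_lit 13⟩, ⟨nat_lit 14847470, nat_lit 13⟩,
  ⟨nat_lit 14615478, nat_lit 12⟩, ⟨nat_lit 14615478, nat_lit 12⟩, ⟨nat_lit 14615478, nat_lit 12⟩, ⟨nat_lit 15528945, nat_lit 11⟩,
  ⟨nat_lit 17470063, nat_lit 10⟩, ⟨nat_lit 22383517, nat_lit 6⟩, ⟨nat_lit 32176305, nat_lit 2⟩, ⟨nat_lit 43780080, nat_lit 1⟩,
  ⟨nat_lit 11603775, nat_lit 6⟩]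

theorem c_17_1 :
    chunk pc_17 ents cmps_17 cls_17_1 (nat_lit 95605244) (nat_lit 1073741824) = true := by
  decide +kernel

/-- cells of piece 18, part 0 -/
def cls_18_0 : List Cell := [
  ⟨nat_lit 213909504, nat_lit 0⟩, ⟨nat_lit 113639424, nat_lit 0⟩, ⟨nat_lit 69249024, nat_lit 1⟩, ⟨nat_lit 44362656, nat_lit 1⟩,
  ⟨nat_lit 26340327, nat_lit 2⟩, ⟨nat_lit 16462704, nat_lit 3⟩, ⟨nat_lit 10289190, nat_lit 4⟩, ⟨nat_lit 7234585, nat_lit 5⟩,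
  ⟨nat_lit 4973776, nat_lit 7⟩, ⟨nat_lit 3419471, nat_lit 10⟩, ⟨nat_lit 2404315, nat_lit 13⟩, ⟨nat_lit 1728101, nat_lit 17⟩,
  ⟨nat_lit 1377079, nat_lit 20⟩, ⟨nat_lit 1269494, nat_lit 21⟩, ⟨nat_lit 1229822, nat_lit 20⟩, ⟨nat_lit 1306685, nat_lit 18⟩,
  ⟨nat_lit 1429186, nat_lit 15⟩, ⟨nat_lit 1473848, nat_lit 13⟩, ⟨nat_lit 1404761, nat_lit 14⟩, ⟨nat_lit 1207215, nat_lit 15⟩,
  ⟨nat_lit 980862, nat_lit 17⟩, ⟨nat_lit 796950, nat_lit 20⟩, ⟨nat_lit 709783, nat_lit 21⟩, ⟨nat_lit 676511, nat_lit 20⟩,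
  ⟨nat_lit 676511, nat_lit 19⟩]

theorem c_18_0 :
    chunk pc_18 ents cmps_18 cls_18_0 (nat_lit 0) (nat_lit 1057103568) = true := by
  decide +kernel

/-- cells of piece 18, part 1 -/
def cls_18_1 : List Cell := [
  ⟨nat_lit 718792, nat_lit 16⟩, ⟨nat_lit 786178, nat_lit 13⟩, ⟨nat_lit 810746, nat_lit 12⟩, ⟨nat_lit 810746, nat_lit 11⟩,
  ⟨nat_lit 684066, nat_lit 11⟩, ⟨nat_lit 545114, nat_lit 12⟩, ⟨nat_lit 425869, nat_lit 14⟩, ⟨nat_lit 339363, nat_lit 16⟩,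
  ⟨nat_lit 296942, nat_lit 17⟩, ⟨nat_lit 283022, nat_lit 16⟩, ⟨nat_lit 274177, nat_lit 14⟩, ⟨nat_lit 282745, nat_lit 12⟩,
  ⟨nat_lit 300416, nat_lit 9⟩, ⟨nat_lit 300416, nat_lit 7⟩, ⟨nat_lit 286334, nat_lit 6⟩, ⟨nat_lit 250542, nat_lit 5⟩,
  ⟨nat_lit 199650, nat_lit 4⟩, ⟨nat_lit 168454, nat_lit 4⟩, ⟨nat_lit 136868, nat_lit 4⟩, ⟨nat_lit 111205, nat_lit 4⟩,
  ⟨nat_lit 100779, nat_lit 4⟩, ⟨nat_lit 94480, nat_lit 4⟩, ⟨nat_lit 91527, nat_lit 5⟩, ⟨nat_lit 20697, nat_lit 32⟩]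

theorem c_18_1 :
    chunk pc_18 ents cmps_18 cls_18_1 (nat_lit 1057103568) (nat_lit 1073741824) = true := by
  decide +kernel

/-- cells of piece 19, part 0 -/
def cls_19_0 : List Cell := [
  ⟨nat_lit 4194304, nat_lit 3⟩, ⟨nat_lit 4980736, nat_lit 4⟩, ⟨nat_lit 6070272, nat_lit 4⟩, ⟨nat_lit 7777536, nat_lit 4⟩,
  ⟨nat_lit 9964968, nat_lit 5⟩, ⟨nat_lit 10899183, nat_lit 5⟩, ⟨nat_lit 10728883, nat_lit 7⟩, ⟨nat_lit 11064160, nat_lit 9⟩,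
  ⟨nat_lit 12447180, nat_lit 9⟩, ⟨nat_lit 15558975, nat_lit 9⟩, ⟨nat_lit 21393590, nat_lit 7⟩, ⟨nat_lit 24736337, nat_lit 7⟩,
  ⟨nat_lit 19711767, nat_lit 10⟩, ⟨nat_lit 18787777, nat_lit 12⟩, ⟨nat_lit 19962013, nat_lit 12⟩, ⟨nat_lit 19962013, nat_lit 11⟩,
  ⟨nat_lit 22457264, nat_lit 10⟩, ⟨nat_lit 23860843, nat_lit 10⟩, ⟨nat_lit 22742365, nat_lit 11⟩, ⟨nat_lit 22031666, nat_lit 11⟩,
  ⟨nat_lit 21687421, nat_lit 11⟩, ⟨nat_lit 22365152, nat_lit 10⟩, ⟨nat_lit 22365152, nat_lit 10⟩, ⟨nat_lit 20617874, nat_lit 10⟩,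
  ⟨nat_lit 18362793, nat_lit 9⟩, ⟨nat_lit 17502036, nat_lit 8⟩, ⟨nat_lit 19142851, nat_lit 5⟩, ⟨nat_lit 18544636, nat_lit 3⟩,
  ⟨nat_lit 15067516, nat_lit 2⟩, ⟨nat_lit 12242356, nat_lit 2⟩, ⟨nat_lit 8607906, nat_lit 2⟩, ⟨nat_lit 7397418, nat_lit 2⟩,
  ⟨nat_lit 7050663, nat_lit 2⟩, ⟨nat_lit 7931995, nat_lit 3⟩, ⟨nat_lit 8653311, nat_lit 4⟩]

theorem c_19_0 :
    chunk pc_19 ents cmps_19 cls_19_0 (nat_lit 0) (nat_lit 1073741824) = true := by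
  decide +kernel

/-- cells of piece 20, part 0 -/
def cls_20_0 : List Cell := [
  ⟨nat_lit 55574528, nat_lit 11⟩, ⟨nat_lit 62521344, nat_lit 11⟩, ⟨nat_lit 64475136, nat_lit 9⟩, ⟨nat_lit 58430592, nat_lit 8⟩,
  ⟨nat_lit 41084010, nat_lit 10⟩, ⟨nat_lit 30171069, nat_lit 12⟩, ⟨nat_lit 27342531, nat_lit 12⟩, ⟨nat_lit 26488076, nat_lit 10⟩,
  ⟨nat_lit 24832571, nat_lit 10⟩, ⟨nat_lit 20952481, nat_lit 10⟩, ⟨nat_lit 18333420, nat_lit 9⟩, ⟨nat_lit 16614661, nat_lit 9⟩,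
  ⟨nat_lit 14018619, nat_lit 9⟩, ⟨nat_lit 12704373, nat_lit 8⟩, ⟨nat_lit 11513337, nat_lit 7⟩, ⟨nat_lit 10254065, nat_lit 6⟩,
  ⟨nat_lit 9613185, nat_lit 4⟩, ⟨nat_lit 8862154, nat_lit 3⟩, ⟨nat_lit 7754384, nat_lit 2⟩, ⟨nat_lit 5815788, nat_lit 2⟩,
  ⟨nat_lit 4361841, nat_lit 3⟩, ⟨nat_lit 4157379, nat_lit 3⟩, ⟨nat_lit 995368, nat_lit 23⟩]

theorem c_20_0 :
    chunk pc_20 ents cmps_20 cls_20_0 (nat_lit 0) (nat_lit 1073741824) = true := by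
  decide +kernel

/-- cells of piece 21, part 0 -/
def cls_21_0 : List Cell := [
  ⟨nat_lit 139264, nat_lit 11⟩, ⟨nat_lit 147968, nat_lit 11⟩, ⟨nat_lit 161840, nat_lit 12⟩, ⟨nat_lit 171955, nat_lit 13⟩,
  ⟨nat_lit 182702, nat_lit 13⟩, ⟨nat_lit 199829, nat_lit 14⟩, ⟨nat_lit 218562, nat_lit 14⟩, ⟨nat_lit 239052, nat_lit 15⟩,
  ⟨nat_lit 253992, nat_lit 15⟩, ⟨nat_lit 261929, nat_lit 17⟩, ⟨nat_lit 278299, nat_lit 18⟩, ⟨nat_lit 304389, nat_lit 18⟩,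
  ⟨nat_lit 342437, nat_lit 17⟩, ⟨nat_lit 406643, nat_lit 16⟩, ⟨nat_lit 495595, nat_lit 14⟩, ⟨nat_lit 619493, nat_lit 13⟩,
  ⟨nat_lit 793725, nat_lit 11⟩, ⟨nat_lit 1041763, nat_lit 10⟩, ⟨nat_lit 1367313, nat_lit 9⟩, ⟨nat_lit 1794598, nat_lit 8⟩,
  ⟨nat_lit 2355409, nat_lit 7⟩, ⟨nat_lit 3091474, nat_lit 7⟩, ⟨nat_lit 4250776, nat_lit 6⟩, ⟨nat_lit 5579143, nat_lit 6⟩,
  ⟨nat_lit 7496972, nat_lit 5⟩, ⟨nat_lit 10308336, nat_lit 5⟩, ⟨nat_lit 14173962, nat_lit 5⟩, ⟨nat_lit 19046260, nat_lit 5⟩,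
  ⟨nat_lit 24998216, nat_lit 5⟩, ⟨nat_lit 33591352, nat_lit 5⟩, ⟨nat_lit 44088649, nat_lit 5⟩, ⟨nat_lit 59244121, nat_lit 5⟩,
  ⟨nat_lit 79609287, nat_lit 4⟩, ⟨nat_lit 106974978, nat_lit 4⟩, ⟨nat_lit 112640629, nat_lit 6⟩]

theorem c_21_0 :
    chunk pc_21 ents cmps_21 cls_21_0 (nat_lit 0) (nat_lit 1073741824) = true := by
  decide +kernel

/-- cells of piece 22, part 0 -/
def cls_22_0 : List Cell := [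
  ⟨nat_lit 92274688, nat_lit 3⟩, ⟨nat_lit 100925440, nat_lit 2⟩, ⟨nat_lit 96194560, nat_lit 3⟩, ⟨nat_lit 85673280, nat_lit 5⟩,
  ⟨nat_lit 72286830, nat_lit 8⟩, ⟨nat_lit 67768903, nat_lit 10⟩, ⟨nat_lit 21747211, nat_lit 40⟩]

theorem c_22_0 :
    chunk pc_22 ents cmps_22 cls_22_0 (nat_lit 0) (nat_lit 1073741824) = true := by
  decide +kernel

/-- cells of piece 23, part 0 -/
def cls_23_0 : List Cell := [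
  ⟨nat_lit 83886080, nat_lit 30⟩, ⟨nat_lit 89128960, nat_lit 30⟩, ⟨nat_lit 94699520, nat_lit 30⟩, ⟨nat_lit 100618240, nat_lit 30⟩,
  ⟨nat_lit 109108224, nat_lit 30⟩, ⟨nat_lit 59429888, nat_lit 59⟩]

theorem c_23_0 :
    chunk pc_23 ents cmps_23 cls_23_0 (nat_lit 0) (nat_lit 1073741824) = true := by
  decide +kernel

end Vale.Agent.P030.V1
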