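import Vale.Agent.P030.V1.Ents
import Vale.Agent.P030.V1.Pc

/-!
# P030, route N: wall checks in the kernel, module 14
-/

namespace Vale.Agent.P030.V1

open Vale.Agent.P030.H532 Vale.Agent.P030.H440.Bd

/-- cells of piece 24, part 0 -/
def cls_24_0 : List Cell := [
  ⟨nat_lit 3145728, nat_lit 7⟩, ⟨nat_lit 3637248, nat_lit 7⟩, ⟨nat_lit 4319232, nat_lit 8⟩, ⟨nat_lit 4994112, nat_lit 8⟩,
  ⟨nat_lit 5462310, nat_lit 8⟩, ⟨nat_lit 6145098, nat_lit 8⟩, ⟨nat_lit 7681372, nat_lit 8⟩, ⟨nat_lit 8881586, nat_lit 7⟩,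
  ⟨nat_lit 9159135, nat_lit 8⟩, ⟨nat_lit 9445357, nat_lit 8⟩, ⟨nat_lit 10330858, nat_lit 9⟩, ⟨nat_lit 11622215, nat_lit 9⟩,
  ⟨nat_lit 13438185, nat_lit 9⟩, ⟨nat_lit 14698014, nat_lit 8⟩, ⟨nat_lit 14468357, nat_lit 9⟩, ⟨nat_lit 14468357, nat_lit 10⟩,
  ⟨nat_lit 14920493, nat_lit 11⟩, ⟨nat_lit 16785554, nat_lit 10⟩, ⟨nat_lit 19408296, nat_lit 9⟩, ⟨nat_lit 20621314, nat_lit 8⟩,
  ⟨nat_lit 17721441, nat_lit 8⟩, ⟨nat_lit 14675567, nat_lit 8⟩, ⟨nat_lit 12382509, nat_lit 8⟩, ⟨nat_lit 11028171, nat_lit 7⟩,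
  ⟨nat_lit 9477333, nat_lit 6⟩, ⟨nat_lit 8144582, nat_lit 5⟩, ⟨nat_lit 6999249, nat_lit 5⟩, ⟨nat_lit 6014978, nat_lit 4⟩]

theorem c_24_0 :
    chunk pc_24 ents cmps_24 cls_24_0 (nat_lit 0) (nat_lit 600153302) = true := by
  decide +kernel

/-- cells of piece 24, part 1 -/
def cls_24_1 : List Cell := [
  ⟨nat_lit 5075137, nat_lit 3⟩, ⟨nat_lit 3647754, nat_lit 2⟩, ⟨nat_lit 2735815, nat_lit 2⟩, ⟨nat_lit 1795378, nat_lit 2⟩,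
  ⟨nat_lit 1402638, nat_lit 1⟩, ⟨nat_lit 1314973, nat_lit 1⟩, ⟨nat_lit 1479344, nat_lit 1⟩, ⟨nat_lit 2034098, nat_lit 2⟩,
  ⟨nat_lit 2924015, nat_lit 2⟩, ⟨nat_lit 3563642, nat_lit 3⟩, ⟨nat_lit 4788643, nat_lit 3⟩, ⟨nat_lit 5836158, nat_lit 3⟩,
  ⟨nat_lit 7477577, nat_lit 4⟩, ⟨nat_lit 8645948, nat_lit 5⟩, ⟨nat_lit 9726691, nat_lit 6⟩, ⟨nat_lit 10942527, nat_lit 7⟩,
  ⟨nat_lit 11968388, nat_lit 8⟩, ⟨nat_lit 13090424, nat_lit 9⟩, ⟨nat_lit 14317651, nat_lit 10⟩, ⟨nat_lit 15659930, nat_lit 11⟩,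
  ⟨nat_lit 15415243, nat_lit 10⟩, ⟨nat_lit 15415243, nat_lit 8⟩, ⟨nat_lit 17342148, nat_lit 5⟩, ⟨nat_lit 20051858, nat_lit 2⟩,
  ⟨nat_lit 17858685, nat_lit 0⟩, ⟨nat_lit 14789223, nat_lit 0⟩, ⟨nat_lit 7495130, nat_lit 1⟩]

theorem c_24_1 :
    chunk pc_24 ents cmps_24 cls_24_1 (nat_lit 600153302) (nat_lit 1073741824) = true := by
  decide +kernel

/-- cells of piece 25, part 0 -/
def cls_25_0 : List Cell := [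
  ⟨nat_lit 393216, nat_lit 1⟩, ⟨nat_lit 638976, nat_lit 1⟩, ⟨nat_lit 1018368, nat_lit 1⟩, ⟨nat_lit 1686672, nat_lit 1⟩,
  ⟨nat_lit 2898967, nat_lit 1⟩, ⟨nat_lit 5254377, nat_lit 1⟩, ⟨nat_lit 9687756, nat_lit 1⟩, ⟨nat_lit 18467284, nat_lit 1⟩,
  ⟨nat_lit 36357465, nat_lit 1⟩, ⟨nat_lit 71578759, nat_lit 1⟩, ⟨nat_lit 140920681, nat_lit 1⟩, ⟨nat_lit 247968391, nat_lit 1⟩]

theorem c_25_0 :
    chunk pc_25 ents cmps_25 cls_25_0 (nat_lit 0) (nat_lit 1073741824) = true := by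
  decide +kernel

/-- cells of piece 26, part 0 -/
def cls_26_0 : List Cell := [
  ⟨nat_lit 201326592, nat_lit 2⟩, ⟨nat_lit 122683392, nat_lit 2⟩, ⟨nat_lit 76677120, nat_lit 2⟩, ⟨nat_lit 46725120, nat_lit 2⟩,
  ⟨nat_lit 29203200, nat_lit 2⟩, ⟨nat_lit 19164600, nat_lit 3⟩, ⟨nat_lit 12576768, nat_lit 3⟩, ⟨nat_lit 7860480, nat_lit 3⟩,
  ⟨nat_lit 5404080, nat_lit 4⟩, ⟨nat_lit 3630866, nat_lit 4⟩, ⟨nat_lit 2439487, nat_lit 6⟩, ⟨nat_lit 1600913, nat_lit 8⟩,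
  ⟨nat_lit 1100627, nat_lit 10⟩, ⟨nat_lit 756680, nat_lit 13⟩, ⟨nat_lit 532040, nat_lit 17⟩, ⟨nat_lit 423969, nat_lit 20⟩,
  ⟨nat_lit 404094, nat_lit 19⟩, ⟨nat_lit 404094, nat_lit 17⟩, ⟨nat_lit 404094, nat_lit 15⟩, ⟨nat_lit 334640, nat_lit 16⟩,
  ⟨nat_lit 292810, nat_lit 17⟩, ⟨nat_lit 279084, nat_lit 16⟩, ⟨nat_lit 261641, nat_lit 15⟩, ⟨nat_lit 261641, nat_lit 13⟩,
  ⟨nat_lit 261641, nat_lit 11⟩, ⟨nat_lit 257552, nat_lit 9⟩, ⟨nat_lit 249503, nat_lit 8⟩, ⟨nat_lit 226112, nat_lit 7⟩,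
  ⟨nat_lit 208447, nat_lit 6⟩, ⟨nat_lit 179134, nat_lit 5⟩, ⟨nat_lit 159541, nat_lit 5⟩, ⟨nat_lit 142090, nat_lit 5⟩,
  ⟨nat_lit 124328, nat_lit 5⟩, ⟨nat_lit 114614, nat_lit 6⟩, ⟨nat_lit 105659, nat_lit 7⟩, ⟨nat_lit 94259, nat_lit 9⟩]

theorem c_26_0 :
    chunk pc_26 ents cmps_26 cls_26_0 (nat_lit 0) (nat_lit 1073741824) = true := by
  decide +kernel

/-- cells of piece 27, part 0 -/
def cls_27_0 : List Cell := [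
  ⟨nat_lit 73400320, nat_lit 3⟩, ⟨nat_lit 91750400, nat_lit 4⟩, ⟨nat_lit 103219200, nat_lit 5⟩, ⟨nat_lit 135475200, nat_lit 5⟩,
  ⟨nat_lit 133025792, nat_lit 4⟩]

theorem c_27_0 :
    chunk pc_27 ents cmps_27 cls_27_0 (nat_lit 0) (nat_lit 1073741824) = true := by
  decide +kernel

/-- cells of piece 28, part 0 -/
def cls_28_0 : List Cell := [
  ⟨nat_lit 73728, nat_lit 2⟩, ⟨nat_lit 54144, nat_lit 2⟩, ⟨nat_lit 46530, nat_lit 2⟩, ⟨nat_lit 43621, nat_lit 2⟩,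
  ⟨nat_lit 50436, nat_lit 3⟩, ⟨nat_lit 56740, nat_lit 4⟩, ⟨nat_lit 63832, nat_lit 5⟩, ⟨nat_lit 75800, nat_lit 5⟩,
  ⟨nat_lit 92381, nat_lit 6⟩, ⟨nat_lit 124136, nat_lit 5⟩, ⟨nat_lit 170687, nat_lit 5⟩, ⟨nat_lit 229360, nat_lit 5⟩,
  ⟨nat_lit 243695, nat_lit 6⟩, ⟨nat_lit 232271, nat_lit 9⟩, ⟨nat_lit 214124, nat_lit 12⟩, ⟨nat_lit 210778, nat_lit 13⟩,
  ⟨nat_lit 223951, nat_lit 14⟩, ⟨nat_lit 237947, nat_lit 14⟩, ⟨nat_lit 275125, nat_lit 14⟩, ⟨nat_lit 309515, nat_lit 14⟩,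
  ⟨nat_lit 338531, nat_lit 13⟩, ⟨nat_lit 338531, nat_lit 14⟩, ⟨nat_lit 338531, nat_lit 15⟩, ⟨nat_lit 338531, nat_lit 16⟩,
  ⟨nat_lit 359689, nat_lit 16⟩, ⟨nat_lit 393409, nat_lit 16⟩, ⟨nat_lit 430291, nat_lit 16⟩, ⟨nat_lit 443737, nat_lit 17⟩,
  ⟨nat_lit 457603, nat_lit 18⟩, ⟨nat_lit 500503, nat_lit 18⟩, ⟨nat_lit 563065, nat_lit 17⟩, ⟨nat_lit 615852, nat_lit 16⟩,
  ⟨nat_lit 654342, nat_lit 15⟩, ⟨nat_lit 644117, nat_lit 17⟩]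

theorem c_28_0 :
    chunk pc_28 ents cmps_28 cls_28_0 (nat_lit 0) (nat_lit 18891066) = true := by
  decide +kernel

/-- cells of piece 28, part 1 -/
def cls_28_1 : List Cell := [
  ⟨nat_lit 644117, nat_lit 18⟩, ⟨nat_lit 684374, nat_lit 18⟩, ⟨nat_lit 748533, nat_lit 17⟩, ⟨nat_lit 771924, nat_lit 18⟩,
  ⟨nat_lit 796046, nat_lit 19⟩, ⟨nat_lit 870674, nat_lit 19⟩, ⟨nat_lit 925091, nat_lit 19⟩, ⟨nat_lit 1011818, nat_lit 19⟩,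
  ⟨nat_lit 1075056, nat_lit 19⟩, ⟨nat_lit 1175842, nat_lit 18⟩, ⟨nat_lit 1249332, nat_lit 17⟩, ⟨nat_lit 1327415, nat_lit 17⟩,
  ⟨nat_lit 1410378, nat_lit 17⟩, ⟨nat_lit 1454452, nat_lit 17⟩, ⟨nat_lit 1454452, nat_lit 19⟩, ⟨nat_lit 1454452, nat_lit 20⟩,
  ⟨nat_lit 1545355, nat_lit 20⟩, ⟨nat_lit 1690231, nat_lit 20⟩, ⟨nat_lit 1795870, nat_lit 20⟩, ⟨nat_lit 1851990, nat_lit 21⟩,
  ⟨nat_lit 2025613, nat_lit 21⟩, ⟨nat_lit 2088913, nat_lit 20⟩, ⟨nat_lit 2219470, nat_lit 20⟩, ⟨nat_lit 2358186, nat_lit 19⟩,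
  ⟨nat_lit 2358186, nat_lit 17⟩, ⟨nat_lit 2431879, nat_lit 16⟩, ⟨nat_lit 2393880, nat_lit 15⟩, ⟨nat_lit 2393880, nat_lit 13⟩,
  ⟨nat_lit 2393880, nat_lit 13⟩, ⟨nat_lit 2356475, nat_lit 12⟩, ⟨nat_lit 2282835, nat_lit 11⟩, ⟨nat_lit 2175826, nat_lit 10⟩,
  ⟨nat_lit 2175826, nat_lit 8⟩, ⟨nat_lit 2107831, nat_lit 7⟩]

theorem c_28_1 :
    chunk pc_28 ents cmps_28 cls_28_1 (nat_lit 18891066) (nat_lit 130291230) = true := by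
  decide +kernel

end Vale.Agent.P030.V1
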