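import Vale.Agent.P030.V1.Ents
import Vale.Agent.P030.V1.Pc

/-!
# P030, route N: wall checks in the kernel, module 15
-/

namespace Vale.Agent.P030.V1

open Vale.Agent.P030.H532 Vale.Agent.P030.H440.Bd

/-- cells of piece 28, part 2 -/
def cls_28_2 : List Cell := [
  ⟨nat_lit 2041961, nat_lit 6⟩, ⟨nat_lit 1914338, nat_lit 5⟩, ⟨nat_lit 1854514, nat_lit 5⟩, ⟨nat_lit 1912467, nat_lit 4⟩,
  ⟨nat_lit 2271054, nat_lit 4⟩, ⟨nat_lit 2767846, nat_lit 4⟩, ⟨nat_lit 3459807, nat_lit 4⟩, ⟨nat_lit 4000401, nat_lit 4⟩,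
  ⟨nat_lit 4375438, nat_lit 6⟩, ⟨nat_lit 4648902, nat_lit 7⟩, ⟨nat_lit 4648902, nat_lit 9⟩, ⟨nat_lit 4503623, nat_lit 11⟩,
  ⟨nat_lit 4644361, nat_lit 13⟩, ⟨nat_lit 4934633, nat_lit 14⟩, ⟨nat_lit 5551462, nat_lit 14⟩, ⟨nat_lit 6939327, nat_lit 12⟩,
  ⟨nat_lit 9107866, nat_lit 11⟩, ⟨nat_lit 11384832, nat_lit 10⟩, ⟨nat_lit 13163712, nat_lit 9⟩, ⟨nat_lit 12752346, nat_lit 10⟩,
  ⟨nat_lit 11556813, nat_lit 13⟩, ⟨nat_lit 10292786, nat_lit 16⟩, ⟨nat_lit 9971136, nat_lit 18⟩, ⟨nat_lit 10594332, nat_lit 18⟩,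
  ⟨nat_lit 12249696, nat_lit 15⟩, ⟨nat_lit 16077726, nat_lit 10⟩, ⟨nat_lit 21102015, nat_lit 7⟩, ⟨nat_lit 27696394, nat_lit 5⟩,
  ⟨nat_lit 38948053, nat_lit 4⟩, ⟨nat_lit 49902192, nat_lit 2⟩, ⟨nat_lit 63937183, nat_lit 1⟩, ⟨nat_lit 63937183, nat_lit 0⟩,
  ⟨nat_lit 28581996, nat_lit 1⟩]

theorem c_28_2 :
    chunk pc_28 ents cmps_28 cls_28_2 (nat_lit 130291230) (nat_lit 1073741824) = true := by
  decide +kernel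

/-- cells of piece 29, part 0 -/
def cls_29_0 : List Cell := [
  ⟨nat_lit 2228224, nat_lit 2⟩, ⟨nat_lit 1810432, nat_lit 2⟩, ⟨nat_lit 1697280, nat_lit 2⟩, ⟨nat_lit 1846560, nat_lit 2⟩,
  ⟨nat_lit 806112, nat_lit 10⟩]

theorem c_29_0 :
    chunk pc_29 ents cmps_29 cls_29_0 (nat_lit 0) (nat_lit 16777216) = true := by
  decide +kernel

/-- cells of piece 30, part 0 -/
def cls_30_0 : List Cell := [
  ⟨nat_lit 524288, nat_lit 12⟩, ⟨nat_lit 401408, nat_lit 14⟩, ⟨nat_lit 307328, nat_lit 18⟩, ⟨nat_lit 264110, nat_lit 19⟩,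
  ⟨nat_lit 255856, nat_lit 19⟩, ⟨nat_lit 243862, nat_lit 19⟩, ⟨nat_lit 236241, nat_lit 18⟩, ⟨nat_lit 243623, nat_lit 17⟩,
  ⟨nat_lit 296914, nat_lit 13⟩, ⟨nat_lit 361863, nat_lit 10⟩, ⟨nat_lit 441019, nat_lit 7⟩, ⟨nat_lit 551273, nat_lit 6⟩,
  ⟨nat_lit 620182, nat_lit 4⟩, ⟨nat_lit 717084, nat_lit 4⟩, ⟨nat_lit 918763, nat_lit 3⟩, ⟨nat_lit 1119741, nat_lit 3⟩,
  ⟨nat_lit 885053, nat_lit 5⟩]

theorem c_30_0 :
    chunk pc_30 ents cmps_30 cls_30_0 (nat_lit 0) (nat_lit 16777216) = true := by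
  decide +kernel

/-- cells of piece 31, part 0 -/
def cls_31_0 : List Cell := [
  ⟨nat_lit 1507328, nat_lit 5⟩, ⟨nat_lit 1318912, nat_lit 5⟩, ⟨nat_lit 1360128, nat_lit 4⟩, ⟨nat_lit 1445136, nat_lit 3⟩,
  ⟨nat_lit 1896125, nat_lit 3⟩, ⟨nat_lit 860979, nat_lit 10⟩]

theorem c_31_0 :
    chunk pc_31 ents cmps_31 cls_31_0 (nat_lit 0) (nat_lit 16777216) = true := by
  decide +kernel

/-- cells of piece 32, part 0 -/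
def cls_32_0 : List Cell := [
  ⟨nat_lit 393216, nat_lit 22⟩, ⟨nat_lit 380928, nat_lit 25⟩, ⟨nat_lit 357120, nat_lit 26⟩, ⟨nat_lit 334800, nat_lit 27⟩,
  ⟨nat_lit 319106, nat_lit 28⟩, ⟨nat_lit 304147, nat_lit 28⟩, ⟨nat_lit 294642, nat_lit 28⟩, ⟨nat_lit 285434, nat_lit 28⟩,
  ⟨nat_lit 276514, nat_lit 29⟩, ⟨nat_lit 272193, nat_lit 29⟩, ⟨nat_lit 267939, nat_lit 29⟩, ⟨nat_lit 263752, nat_lit 29⟩,
  ⟨nat_lit 263752, nat_lit 29⟩, ⟨nat_lit 263752, nat_lit 28⟩]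

theorem c_32_0 :
    chunk pc_32 ents cmps_32 cls_32_0 (nat_lit 0) (nat_lit 8554590) = true := by
  decide +kernel

/-- cells of piece 32, part 1 -/
def cls_32_1 : List Cell := [
  ⟨nat_lit 263752, nat_lit 29⟩, ⟨nat_lit 263752, nat_lit 29⟩, ⟨nat_lit 271994, nat_lit 28⟩, ⟨nat_lit 271994, nat_lit 28⟩,
  ⟨nat_lit 280493, nat_lit 28⟩, ⟨nat_lit 289258, nat_lit 28⟩, ⟨nat_lit 298297, nat_lit 28⟩, ⟨nat_lit 316940, nat_lit 27⟩,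
  ⟨nat_lit 326844, nat_lit 27⟩, ⟨nat_lit 347271, nat_lit 26⟩, ⟨nat_lit 379827, nat_lit 25⟩, ⟨nat_lit 415435, nat_lit 23⟩,
  ⟨nat_lit 385456, nat_lit 23⟩]

theorem c_32_1 :
    chunk pc_32 ents cmps_32 cls_32_1 (nat_lit 8554590) (nat_lit 16777216) = true := by
  decide +kernel

end Vale.Agent.P030.V1
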