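import Vale.Agent.P030.H440.Run
import Vale.Agent.P030.V1.Tab
import Vale.Agent.P030.V1.Pc

/-!
# P030, route N: the wall pieces and their constants
-/

namespace Vale.Agent.P030.V1

open Vale.Agent.P030.H532 Vale.Agent.P030.H440 Vale.Agent.P030.H440.Bd Vale.Agent.P030.H69

/-- piece 0 -/
def p_0 : Piece := ⟨718735933440000, -654311424, -42840063, 26520039, 45634027520000, 67108864, -2720004, -2720004⟩

/-- comparisons of piece 0 -/
def prs_0 : List (ℕ × ℕ) := [(4, 3), (5, 3), (6, 3), (7, 3)]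

theorem fix_0 : fixOk 5629869032 tab.N cs p_0 1 pc_0 prs_0 cmps_0 = true := by decide +kernel

/-- piece 1 -/
def p_1 : Piece := ⟨18617223610368, 3036676096, -1109892, -917308, 17002030694400, 3355443200, -1013600, -1013600⟩

/-- comparisons of piece 1 -/
def prs_1 : List (ℕ × ℕ) := [(4, 3), (5, 3), (6, 3)]

theorem fix_1 : fixOk 5629869032 tab.N cs p_1 1 pc_1 prs_1 cmps_1 = true := by decide +kernel

/-- piece 2 -/
def p_2 : Piece := ⟨3181262143488, 8271167488, -190125, -184875, 6274678784000, 16777216000, -375000, -375000⟩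

/-- comparisons of piece 2 -/
def prs_2 : List (ℕ × ℕ) := [(4, 3), (5, 3), (6, 3), (7, 3), (7, 6)]

theorem fix_2 : fixOk 5629869032 tab.N cs p_2 1 pc_2 prs_2 cmps_2 = true := by decide +kernel

/-- piece 3 -/
def p_3 : Piece := ⟨7599441313792, -1929379840, -453005, 1211525, 70692477337600, 6710886400, -4214000, -4214000⟩

/-- comparisons of piece 3 -/
def prs_3 : List (ℕ × ℕ) := [(4, 3), (5, 3), (6, 3), (7, 3)]

theorem fix_3 : fixOk 5629869032 tab.N cs p_3 1 pc_3 prs_3 cmps_3 = true := by decide +kernel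

/-- piece 4 -/
def p_4 : Piece := ⟨172453003264, -84691386368, -7724, 3793, 116098334720, -240249733120, -5200, 10760⟩

/-- comparisons of piece 4 -/
def prs_4 : List (ℕ × ℕ) := [(2, 1), (3, 1), (5, 1), (3, 2), (5, 2)]

theorem fix_4 : fixOk 5629869032 tab.N cs p_4 1 pc_4 prs_4 cmps_4 = true := by decide +kernel

/-- piece 5 -/
def p_5 : Piece := ⟨42865786880, -21055406080, -497, -1236, 28856811520, -59726888960, -760, -2640⟩

/-- comparisons of piece 5 -/
def prs_5 : List (ℕ × ℕ) := [(3, 2), (5, 2)]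

theorem fix_5 : fixOk 5629869032 tab.N cs p_5 1 pc_5 prs_5 cmps_5 = true := by decide +kernel

/-- piece 6 -/
def p_6 : Piece := ⟨34527510528, -41792045056, -943, 1141, 16106127360, -104018739200, -440, 2840⟩

/-- comparisons of piece 6 -/
def prs_6 : List (ℕ × ℕ) := [(3, 2), (5, 2), (5, 4), (6, 4), (7, 4), (7, 6)]

theorem fix_6 : fixOk 5629869032 tab.N cs p_6 1 pc_6 prs_6 cmps_6 = true := by decide +kernel

/-- piece 7 -/
def p_7 : Piece := ⟨18706595840, -22649241600, -2247, -4071, 8724152320, -56371445760, -3000, -8520⟩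

/-- comparisons of piece 7 -/
def prs_7 : List (ℕ × ℕ) := [(3, 2), (5, 2)]

theorem fix_7 : fixOk 5629869032 tab.N cs p_7 1 pc_7 prs_7 cmps_7 = true := by decide +kernel

/-- piece 8 -/
def p_8 : Piece := ⟨-227952033792, -47580184576, 3308, 7884, -199313326080, -41607495680, 4960, 16800⟩

/-- comparisons of piece 8 -/
def prs_8 : List (ℕ × ℕ) := [(3, 2), (5, 2)]

theorem fix_8 : fixOk 5629869032 tab.N cs p_8 1 pc_8 prs_8 cmps_8 = true := by decide +kernel

/-- piece 9 -/
def p_9 : Piece := ⟨11596411699200, -301989888, -646254, 15516, 16106127360000, 419430400, -897575, -21550⟩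

/-- comparisons of piece 9 -/
def prs_9 : List (ℕ × ℕ) := [(2, 1)]

theorem fix_9 : fixOk 5629869032 tab.N cs p_9 1 pc_9 prs_9 cmps_9 = true := by decide +kernel

/-- piece 10 -/
def p_10 : Piece := ⟨754068750336, 260013293568, -44964, 675702, 1047317708800, -361129574400, -62450, -938475⟩

/-- comparisons of piece 10 -/
def prs_10 : List (ℕ × ℕ) := [(2, 1), (3, 1), (5, 1)]

theorem fix_10 : fixOk 5629869032 tab.N cs p_10 1 pc_10 prs_10 cmps_10 = true := by decide +kernel

/-- piece 11 -/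
def p_11 : Piece := ⟨47464438562816, -1728053248, -2829204, 2829204, 92163958374400, 3355443200, -5493600, -5493600⟩

/-- comparisons of piece 11 -/
def prs_11 : List (ℕ × ℕ) := [(5, 4), (6, 4), (7, 4), (7, 6)]

theorem fix_11 : fixOk 5629869032 tab.N cs p_11 1 pc_11 prs_11 cmps_11 = true := by decide +kernel

/-- piece 12 -/
def p_12 : Piece := ⟨-18683107737600, 0, -63886, 0, 18253611008, 0, 8320, 0⟩

/-- comparisons of piece 12 -/
def prs_12 : List (ℕ × ℕ) := [(2, 0), (3, 1), (4, 1), (6, 1), (7, 1), (6, 5), (7, 5), (7, 6)]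

theorem fix_12 : fixOk 5629869032 tab.N cs p_12 1 pc_12 prs_12 cmps_12 = true := by decide +kernel

/-- piece 13 -/
def p_13 : Piece := ⟨-87280177905664, 0, 20, 0, 8951785586688, 0, -2, 0⟩

/-- comparisons of piece 13 -/
def prs_13 : List (ℕ × ℕ) := [(2, 0), (3, 1), (4, 1), (5, 1), (6, 1), (7, 1), (6, 5), (7, 5), (7, 6)]

theorem fix_13 : fixOk 5629869032 tab.N cs p_13 1 pc_13 prs_13 cmps_13 = true := by decide +kernel

/-- piece 14 -/
def p_14 : Piece := ⟨-87258703069184, 0, 81180, 0, 8949638103040, 0, -8168, 0⟩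

/-- comparisons of piece 14 -/
def prs_14 : List (ℕ × ℕ) := [(2, 0), (3, 1), (5, 1), (6, 1), (7, 1), (6, 5), (7, 5), (7, 6)]

theorem fix_14 : fixOk 5629869032 tab.N cs p_14 1 pc_14 prs_14 cmps_14 = true := by decide +kernel

/-- piece 15 -/
def p_15 : Piece := ⟨-92341796864, 0, -50, 0, 179314884608, 0, 306, 0⟩

/-- comparisons of piece 15 -/
def prs_15 : List (ℕ × ℕ) := [(2, 0), (3, 1), (5, 1), (6, 1), (7, 1), (6, 5)]

theorem fix_15 : fixOk 5629869032 tab.N cs p_15 1 pc_15 prs_15 cmps_15 = true := by decide +kernel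

/-- piece 16 -/
def p_16 : Piece := ⟨-146028888064, 0, -4, 0, 507879882752, 0, 14, 0⟩

/-- comparisons of piece 16 -/
def prs_16 : List (ℕ × ℕ) := [(2, 0), (3, 1), (4, 1), (5, 1), (6, 1), (7, 1), (6, 5)]

theorem fix_16 : fixOk 5629869032 tab.N cs p_16 1 pc_16 prs_16 cmps_16 = true := by decide +kernel

/-- piece 17 -/
def p_17 : Piece := ⟨-150323855360, 0, 123, 0, 522912268288, 0, 34330, 0⟩

/-- comparisons of piece 17 -/
def prs_17 : List (ℕ × ℕ) := [(2, 0), (3, 1), (4, 1), (6, 5)]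

theorem fix_17 : fixOk 5629869032 tab.N cs p_17 1 pc_17 prs_17 cmps_17 = true := by decide +kernel

/-- piece 18 -/
def p_18 : Piece := ⟨18253611008, 0, 6, 0, 37384469086208, 0, -34603, 0⟩

/-- comparisons of piece 18 -/
def prs_18 : List (ℕ × ℕ) := [(4, 2)]

theorem fix_18 : fixOk 5629869032 tab.N cs p_18 1 pc_18 prs_18 cmps_18 = true := by decide +kernel

/-- piece 19 -/
def p_19 : Piece := ⟨24696061952, 0, 144, 0, 229780750336, 0, 152, 0⟩

/-- comparisons of piece 19 -/
def prs_19 : List (ℕ × ℕ) := [(4, 2), (6, 3)]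

theorem fix_19 : fixOk 5629869032 tab.N cs p_19 1 pc_19 prs_19 cmps_19 = true := by decide +kernel

/-- piece 20 -/
def p_20 : Piece := ⟨179314884608, 0, -61, 0, 392989507584, 0, -151, 0⟩

/-- comparisons of piece 20 -/
def prs_20 : List (ℕ × ℕ) := [(3, 2), (4, 2), (5, 2), (6, 2), (6, 3)]

theorem fix_20 : fixOk 5629869032 tab.N cs p_20 1 pc_20 prs_20 cmps_20 = true := by decide +kernel

/-- piece 21 -/
def p_21 : Piece := ⟨113816633344, 0, 16597, 0, 230854492160, 0, 33322, 0⟩

/-- comparisons of piece 21 -/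
def prs_21 : List (ℕ × ℕ) := [(3, 2), (5, 2), (6, 2)]

theorem fix_21 : fixOk 5629869032 tab.N cs p_21 1 pc_21 prs_21 cmps_21 = true := by decide +kernel

/-- piece 22 -/
def p_22 : Piece := ⟨117037858816, 0, -23, 0, 230854492160, 0, -48, 0⟩

/-- comparisons of piece 22 -/
def prs_22 : List (ℕ × ℕ) := [(6, 3), (7, 3), (7, 6)]

theorem fix_22 : fixOk 5629869032 tab.N cs p_22 1 pc_22 prs_22 cmps_22 = true := by decide +kernel

/-- piece 23 -/
def p_23 : Piece := ⟨92341796864, 0, 34, 0, 179314884608, 0, 66, 0⟩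

/-- comparisons of piece 23 -/
def prs_23 : List (ℕ × ℕ) := [(6, 3), (7, 3), (6, 4), (7, 6)]

theorem fix_23 : fixOk 5629869032 tab.N cs p_23 1 pc_23 prs_23 cmps_23 = true := by decide +kernel

/-- piece 24 -/
def p_24 : Piece := ⟨128849018880, 0, 42, 0, 250181844992, 0, -54, 0⟩

/-- comparisons of piece 24 -/
def prs_24 : List (ℕ × ℕ) := [(6, 3), (6, 4)]

theorem fix_24 : fixOk 5629869032 tab.N cs p_24 1 pc_24 prs_24 cmps_24 = true := by decide +kernel

/-- piece 25 -/
def p_25 : Piece := ⟨173946175488, 0, 32986, 0, 192199786496, 0, 33230, 0⟩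

/-- comparisons of piece 25 -/
def prs_25 : List (ℕ × ℕ) := [(6, 4)]

theorem fix_25 : fixOk 5629869032 tab.N cs p_25 1 pc_25 prs_25 cmps_25 = true := by decide +kernel

/-- piece 26 -/
def p_26 : Piece := ⟨36152887214080, 0, -33474, 0, 35872640598016, 0, -33230, 0⟩

/-- comparisons of piece 26 -/
def prs_26 : List (ℕ × ℕ) := [(3, 2), (6, 5)]

theorem fix_26 : fixOk 5629869032 tab.N cs p_26 1 pc_26 prs_26 cmps_26 = true := by decide +kernel

/-- piece 27 -/
def p_27 : Piece := ⟨210453397504, 0, -5, 0, 192199786496, 0, -12, 0⟩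

/-- comparisons of piece 27 -/
def prs_27 : List (ℕ × ℕ) := [(3, 2), (4, 2), (5, 2), (6, 2), (6, 5)]

theorem fix_27 : fixOk 5629869032 tab.N cs p_27 1 pc_27 prs_27 cmps_27 = true := by decide +kernel

/-- piece 28 -/
def p_28 : Piece := ⟨205084688384, 0, 17226, 0, 179314884608, 0, -150, 0⟩

/-- comparisons of piece 28 -/
def prs_28 : List (ℕ × ℕ) := [(4, 2), (6, 5)]

theorem fix_28 : fixOk 5629869032 tab.N cs p_28 1 pc_28 prs_28 cmps_28 = true := by decide +kernel

/-- piece 29 -/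
def p_29 : Piece := ⟨115428688920576, 2130706432, -6880215, -6773545, 114533892882432, 2147483648, -6826880, -6826880⟩

/-- comparisons of piece 29 -/
def prs_29 : List (ℕ × ℕ) := [(3, 2), (6, 4), (6, 5)]

theorem fix_29 : fixOk 5629869032 tab.N cs p_29 1 pc_29 prs_29 cmps_29 = true := by decide +kernel

/-- piece 30 -/
def p_30 : Piece := ⟨229962581803008, 4278190080, -13707095, -13600425, 458135571529728, 8589934592, -27307520, -27307520⟩

/-- comparisons of piece 30 -/
def prs_30 : List (ℕ × ℕ) := [(3, 2), (5, 2), (6, 2)]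

theorem fix_30 : fixOk 5629869032 tab.N cs p_30 1 pc_30 prs_30 cmps_30 = true := by decide +kernel

/-- piece 31 -/
def p_31 : Piece := ⟨894796038144, -16777216, -53335, 53335, 1832542286118912, 34359738368, -109230080, -109230080⟩

/-- comparisons of piece 31 -/
def prs_31 : List (ℕ × ℕ) := [(2, 0), (4, 0), (3, 1), (4, 1), (4, 2), (6, 5)]

theorem fix_31 : fixOk 5629869032 tab.N cs p_31 1 pc_31 prs_31 cmps_31 = true := by decide +kernel

/-- piece 32 -/
def p_32 : Piece := ⟨1833437082157056, -34342961152, -109283415, 109176745, 1789592076288, 33554432, -106670, -106670⟩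

/-- comparisons of piece 32 -/
def prs_32 : List (ℕ × ℕ) := [(2, 0), (4, 0), (3, 1), (4, 1), (6, 1), (7, 1), (4, 2), (6, 5), (7, 5), (7, 6)]

theorem fix_32 : fixOk 5629869032 tab.N cs p_32 1 pc_32 prs_32 cmps_32 = true := by decide +kernel

end Vale.Agent.P030.V1
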