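import Vale.Agent.P030.H440.RunOn
import Vale.Agent.P030.V1.G
import Vale.Agent.P030.V1.C00
import Vale.Agent.P030.V1.C01
import Vale.Agent.P030.V1.C02
import Vale.Agent.P030.V1.C03
import Vale.Agent.P030.V1.C04
import Vale.Agent.P030.V1.C05
import Vale.Agent.P030.V1.C06
import Vale.Agent.P030.V1.C07
import Vale.Agent.P030.V1.C08
import Vale.Agent.P030.V1.C09
import Vale.Agent.P030.V1.C10
import Vale.Agent.P030.V1.C11
import Vale.Agent.P030.V1.C12
import Vale.Agent.P030.V1.C13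
import Vale.Agent.P030.V1.C14
import Vale.Agent.P030.V1.C15

/-!
# P030, route N: all wall pieces of the table
-/

namespace Vale.Agent.P030.V1

open Vale.Agent.P030.H532 Vale.Agent.P030.H440 Vale.Agent.P030.H440.Bd Vale.Agent.P030.H250

theorem on_0 : OnI tab.toTab.W p_0 prs_0 0 16777216 := by
  have h0 : On tab p_0 prs_0 0 5231408 :=
    on_chunk tab_ok tab_SD cs_ok fix_0 c_0_0 (by decide +kernel)
  have h1 : On tab p_0 prs_0 5231408 8917956 :=
    on_chunk tab_ok tab_SD cs_ok fix_0 c_0_1 (by decide +kernel)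
  have h2 : On tab p_0 prs_0 8917956 12333184 :=
    on_chunk tab_ok tab_SD cs_ok fix_0 c_0_2 (by decide +kernel)
  have h3 : On tab p_0 prs_0 12333184 16777216 :=
    on_chunk tab_ok tab_SD cs_ok fix_0 c_0_3 (by decide +kernel)
  exact On.onI (((h0.trans h1).trans h2).trans h3) rfl rfl

theorem on_1 : OnI tab.toTab.W p_1 prs_1 0 16777216 := by
  have h0 : On tab p_1 prs_1 0 5234760 :=
    on_chunk tab_ok tab_SD cs_ok fix_1 c_1_0 (by decide +kernel)
  have h1 : On tab p_1 prs_1 5234760 8780558 :=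
    on_chunk tab_ok tab_SD cs_ok fix_1 c_1_1 (by decide +kernel)
  have h2 : On tab p_1 prs_1 8780558 12245070 :=
    on_chunk tab_ok tab_SD cs_ok fix_1 c_1_2 (by decide +kernel)
  have h3 : On tab p_1 prs_1 12245070 16777216 :=
    on_chunk tab_ok tab_SD cs_ok fix_1 c_1_3 (by decide +kernel)
  exact On.onI (((h0.trans h1).trans h2).trans h3) rfl rfl

theorem on_2 : OnI tab.toTab.W p_2 prs_2 0 16777216 := by
  have h0 : On tab p_2 prs_2 0 6912714 :=
    on_chunk tab_ok tab_SD cs_ok fix_2 c_2_0 (by decide +kernel)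
  have h1 : On tab p_2 prs_2 6912714 11670440 :=
    on_chunk tab_ok tab_SD cs_ok fix_2 c_2_1 (by decide +kernel)
  have h2 : On tab p_2 prs_2 11670440 16777216 :=
    on_chunk tab_ok tab_SD cs_ok fix_2 c_2_2 (by decide +kernel)
  exact On.onI ((h0.trans h1).trans h2) rfl rfl

theorem on_3 : OnI tab.toTab.W p_3 prs_3 0 16777216 := by
  have h0 : On tab p_3 prs_3 0 3283708 :=
    on_chunk tab_ok tab_SD cs_ok fix_3 c_3_0 (by decide +kernel)
  have h1 : On tab p_3 prs_3 3283708 6358678 :=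
    on_chunk tab_ok tab_SD cs_ok fix_3 c_3_1 (by decide +kernel)
  have h2 : On tab p_3 prs_3 6358678 10118998 :=
    on_chunk tab_ok tab_SD cs_ok fix_3 c_3_2 (by decide +kernel)
  have h3 : On tab p_3 prs_3 10118998 16777216 :=
    on_chunk tab_ok tab_SD cs_ok fix_3 c_3_3 (by decide +kernel)
  exact On.onI (((h0.trans h1).trans h2).trans h3) rfl rfl

theorem on_4 : OnI tab.toTab.W p_4 prs_4 0 16777216 := by
  have h0 : On tab p_4 prs_4 0 11617474 :=
    on_chunk tab_ok tab_SD cs_ok fix_4 c_4_0 (by decide +kernel)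
  have h1 : On tab p_4 prs_4 11617474 16777216 :=
    on_chunk tab_ok tab_SD cs_ok fix_4 c_4_1 (by decide +kernel)
  exact On.onI (h0.trans h1) rfl rfl

theorem on_5 : OnI tab.toTab.W p_5 prs_5 0 16777216 := by
  have h0 : On tab p_5 prs_5 0 4222674 :=
    on_chunk tab_ok tab_SD cs_ok fix_5 c_5_0 (by decide +kernel)
  have h1 : On tab p_5 prs_5 4222674 9855836 :=
    on_chunk tab_ok tab_SD cs_ok fix_5 c_5_1 (by decide +kernel)
  have h2 : On tab p_5 prs_5 9855836 16777216 :=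
    on_chunk tab_ok tab_SD cs_ok fix_5 c_5_2 (by decide +kernel)
  exact On.onI ((h0.trans h1).trans h2) rfl rfl

theorem on_6 : OnI tab.toTab.W p_6 prs_6 0 16777216 := by
  have h0 : On tab p_6 prs_6 0 16777216 :=
    on_chunk tab_ok tab_SD cs_ok fix_6 c_6_0 (by decide +kernel)
  exact On.onI h0 rfl rfl

theorem on_7 : OnI tab.toTab.W p_7 prs_7 0 16777216 := by
  have h0 : On tab p_7 prs_7 0 1121524 :=
    on_chunk tab_ok tab_SD cs_ok fix_7 c_7_0 (by decide +kernel)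
  have h1 : On tab p_7 prs_7 1121524 2721642 :=
    on_chunk tab_ok tab_SD cs_ok fix_7 c_7_1 (by decide +kernel)
  have h2 : On tab p_7 prs_7 2721642 5006740 :=
    on_chunk tab_ok tab_SD cs_ok fix_7 c_7_2 (by decide +kernel)
  have h3 : On tab p_7 prs_7 5006740 8706136 :=
    on_chunk tab_ok tab_SD cs_ok fix_7 c_7_3 (by decide +kernel)
  have h4 : On tab p_7 prs_7 8706136 16777216 :=
    on_chunk tab_ok tab_SD cs_ok fix_7 c_7_4 (by decide +kernel)
  exact On.onI ((((h0.trans h1).trans h2).trans h3).trans h4) rfl rfl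

theorem on_8 : OnI tab.toTab.W p_8 prs_8 0 16777216 := by
  have h0 : On tab p_8 prs_8 0 2826128 :=
    on_chunk tab_ok tab_SD cs_ok fix_8 c_8_0 (by decide +kernel)
  have h1 : On tab p_8 prs_8 2826128 5050322 :=
    on_chunk tab_ok tab_SD cs_ok fix_8 c_8_1 (by decide +kernel)
  have h2 : On tab p_8 prs_8 5050322 7055694 :=
    on_chunk tab_ok tab_SD cs_ok fix_8 c_8_2 (by decide +kernel)
  have h3 : On tab p_8 prs_8 7055694 8894846 :=
    on_chunk tab_ok tab_SD cs_ok fix_8 c_8_3 (by decide +kernel)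
  have h4 : On tab p_8 prs_8 8894846 10834230 :=
    on_chunk tab_ok tab_SD cs_ok fix_8 c_8_4 (by decide +kernel)
  have h5 : On tab p_8 prs_8 10834230 12850652 :=
    on_chunk tab_ok tab_SD cs_ok fix_8 c_8_5 (by decide +kernel)
  have h6 : On tab p_8 prs_8 12850652 15003832 :=
    on_chunk tab_ok tab_SD cs_ok fix_8 c_8_6 (by decide +kernel)
  have h7 : On tab p_8 prs_8 15003832 16777216 :=
    on_chunk tab_ok tab_SD cs_ok fix_8 c_8_7 (by decide +kernel)
  exact On.onI (((((((h0.trans h1).trans h2).trans h3).trans h4).trans h5).trans h6).trans h7) rfl rfl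

theorem on_9 : OnI tab.toTab.W p_9 prs_9 0 16777216 := by
  have h0 : On tab p_9 prs_9 0 6269678 :=
    on_chunk tab_ok tab_SD cs_ok fix_9 c_9_0 (by decide +kernel)
  have h1 : On tab p_9 prs_9 6269678 9511478 :=
    on_chunk tab_ok tab_SD cs_ok fix_9 c_9_1 (by decide +kernel)
  have h2 : On tab p_9 prs_9 9511478 11485246 :=
    on_chunk tab_ok tab_SD cs_ok fix_9 c_9_2 (by decide +kernel)
  have h3 : On tab p_9 prs_9 11485246 12783432 :=
    on_chunk tab_ok tab_SD cs_ok fix_9 c_9_3 (by decide +kernel)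
  have h4 : On tab p_9 prs_9 12783432 13708700 :=
    on_chunk tab_ok tab_SD cs_ok fix_9 c_9_4 (by decide +kernel)
  have h5 : On tab p_9 prs_9 13708700 14372208 :=
    on_chunk tab_ok tab_SD cs_ok fix_9 c_9_5 (by decide +kernel)
  have h6 : On tab p_9 prs_9 14372208 14897870 :=
    on_chunk tab_ok tab_SD cs_ok fix_9 c_9_6 (by decide +kernel)
  have h7 : On tab p_9 prs_9 14897870 15331416 :=
    on_chunk tab_ok tab_SD cs_ok fix_9 c_9_7 (by decide +kernel)
  have h8 : On tab p_9 prs_9 15331416 15699584 :=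
    on_chunk tab_ok tab_SD cs_ok fix_9 c_9_8 (by decide +kernel)
  have h9 : On tab p_9 prs_9 15699584 16020402 :=
    on_chunk tab_ok tab_SD cs_ok fix_9 c_9_9 (by decide +kernel)
  have h10 : On tab p_9 prs_9 16020402 16305382 :=
    on_chunk tab_ok tab_SD cs_ok fix_9 c_9_10 (by decide +kernel)
  have h11 : On tab p_9 prs_9 16305382 16561342 :=
    on_chunk tab_ok tab_SD cs_ok fix_9 c_9_11 (by decide +kernel)
  have h12 : On tab p_9 prs_9 16561342 16777216 :=
    on_chunk tab_ok tab_SD cs_ok fix_9 c_9_12 (by decide +kernel)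
  exact On.onI ((((((((((((h0.trans h1).trans h2).trans h3).trans h4).trans h5).trans h6).trans h7).trans h8).trans h9).trans h10).trans h11).trans h12) rfl rfl

theorem on_10 : OnI tab.toTab.W p_10 prs_10 0 16777216 := by
  have h0 : On tab p_10 prs_10 0 87086 :=
    on_chunk tab_ok tab_SD cs_ok fix_10 c_10_0 (by decide +kernel)
  have h1 : On tab p_10 prs_10 87086 228774 :=
    on_chunk tab_ok tab_SD cs_ok fix_10 c_10_1 (by decide +kernel)
  have h2 : On tab p_10 prs_10 228774 454090 :=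
    on_chunk tab_ok tab_SD cs_ok fix_10 c_10_2 (by decide +kernel)
  have h3 : On tab p_10 prs_10 454090 851394 :=
    on_chunk tab_ok tab_SD cs_ok fix_10 c_10_3 (by decide +kernel)
  have h4 : On tab p_10 prs_10 851394 1726836 :=
    on_chunk tab_ok tab_SD cs_ok fix_10 c_10_4 (by decide +kernel)
  have h5 : On tab p_10 prs_10 1726836 3886106 :=
    on_chunk tab_ok tab_SD cs_ok fix_10 c_10_5 (by decide +kernel)
  have h6 : On tab p_10 prs_10 3886106 16777216 :=
    on_chunk tab_ok tab_SD cs_ok fix_10 c_10_6 (by decide +kernel)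
  exact On.onI ((((((h0.trans h1).trans h2).trans h3).trans h4).trans h5).trans h6) rfl rfl

theorem on_11 : OnI tab.toTab.W p_11 prs_11 0 16777216 := by
  have h0 : On tab p_11 prs_11 0 775848 :=
    on_chunk tab_ok tab_SD cs_ok fix_11 c_11_0 (by decide +kernel)
  have h1 : On tab p_11 prs_11 775848 1891982 :=
    on_chunk tab_ok tab_SD cs_ok fix_11 c_11_1 (by decide +kernel)
  have h2 : On tab p_11 prs_11 1891982 3164982 :=
    on_chunk tab_ok tab_SD cs_ok fix_11 c_11_2 (by decide +kernel)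
  have h3 : On tab p_11 prs_11 3164982 4317358 :=
    on_chunk tab_ok tab_SD cs_ok fix_11 c_11_3 (by decide +kernel)
  have h4 : On tab p_11 prs_11 4317358 5676074 :=
    on_chunk tab_ok tab_SD cs_ok fix_11 c_11_4 (by decide +kernel)
  have h5 : On tab p_11 prs_11 5676074 7068904 :=
    on_chunk tab_ok tab_SD cs_ok fix_11 c_11_5 (by decide +kernel)
  have h6 : On tab p_11 prs_11 7068904 8493722 :=
    on_chunk tab_ok tab_SD cs_ok fix_11 c_11_6 (by decide +kernel)
  have h7 : On tab p_11 prs_11 8493722 10017916 :=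
    on_chunk tab_ok tab_SD cs_ok fix_11 c_11_7 (by decide +kernel)
  have h8 : On tab p_11 prs_11 10017916 11741754 :=
    on_chunk tab_ok tab_SD cs_ok fix_11 c_11_8 (by decide +kernel)
  have h9 : On tab p_11 prs_11 11741754 13852970 :=
    on_chunk tab_ok tab_SD cs_ok fix_11 c_11_9 (by decide +kernel)
  have h10 : On tab p_11 prs_11 13852970 16777216 :=
    on_chunk tab_ok tab_SD cs_ok fix_11 c_11_10 (by decide +kernel)
  exact On.onI ((((((((((h0.trans h1).trans h2).trans h3).trans h4).trans h5).trans h6).trans h7).trans h8).trans h9).trans h10) rfl rfl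

theorem on_12 : OnI tab.toTab.W p_12 prs_12 0 1073741824 := by
  have h0 : On tab p_12 prs_12 0 107312542 :=
    on_chunk tab_ok tab_SD cs_ok fix_12 c_12_0 (by decide +kernel)
  have h1 : On tab p_12 prs_12 107312542 1073741824 :=
    on_chunk tab_ok tab_SD cs_ok fix_12 c_12_1 (by decide +kernel)
  exact On.onI (h0.trans h1) rfl rfl

theorem on_13 : OnI tab.toTab.W p_13 prs_13 0 1073741824 := by
  have h0 : On tab p_13 prs_13 0 1073741824 :=
    on_chunk tab_ok tab_SD cs_ok fix_13 c_13_0 (by decide +kernel)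
  exact On.onI h0 rfl rfl

theorem on_14 : OnI tab.toTab.W p_14 prs_14 0 1073741824 := by
  have h0 : On tab p_14 prs_14 0 1006939818 :=
    on_chunk tab_ok tab_SD cs_ok fix_14 c_14_0 (by decide +kernel)
  have h1 : On tab p_14 prs_14 1006939818 1068420132 :=
    on_chunk tab_ok tab_SD cs_ok fix_14 c_14_1 (by decide +kernel)
  have h2 : On tab p_14 prs_14 1068420132 1073741824 :=
    on_chunk tab_ok tab_SD cs_ok fix_14 c_14_2 (by decide +kernel)
  exact On.onI ((h0.trans h1).trans h2) rfl rfl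

theorem on_15 : OnI tab.toTab.W p_15 prs_15 0 1073741824 := by
  have h0 : On tab p_15 prs_15 0 1073741824 :=
    on_chunk tab_ok tab_SD cs_ok fix_15 c_15_0 (by decide +kernel)
  exact On.onI h0 rfl rfl

theorem on_16 : OnI tab.toTab.W p_16 prs_16 0 1073741824 := by
  have h0 : On tab p_16 prs_16 0 1073741824 :=
    on_chunk tab_ok tab_SD cs_ok fix_16 c_16_0 (by decide +kernel)
  exact On.onI h0 rfl rfl

theorem on_17 : OnI tab.toTab.W p_17 prs_17 0 1073741824 := by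
  have h0 : On tab p_17 prs_17 0 95605244 :=
    on_chunk tab_ok tab_SD cs_ok fix_17 c_17_0 (by decide +kernel)
  have h1 : On tab p_17 prs_17 95605244 1073741824 :=
    on_chunk tab_ok tab_SD cs_ok fix_17 c_17_1 (by decide +kernel)
  exact On.onI (h0.trans h1) rfl rfl

theorem on_18 : OnI tab.toTab.W p_18 prs_18 0 1073741824 := by
  have h0 : On tab p_18 prs_18 0 1057103568 :=
    on_chunk tab_ok tab_SD cs_ok fix_18 c_18_0 (by decide +kernel)
  have h1 : On tab p_18 prs_18 1057103568 1073741824 :=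
    on_chunk tab_ok tab_SD cs_ok fix_18 c_18_1 (by decide +kernel)
  exact On.onI (h0.trans h1) rfl rfl

theorem on_19 : OnI tab.toTab.W p_19 prs_19 0 1073741824 := by
  have h0 : On tab p_19 prs_19 0 1073741824 :=
    on_chunk tab_ok tab_SD cs_ok fix_19 c_19_0 (by decide +kernel)
  exact On.onI h0 rfl rfl

theorem on_20 : OnI tab.toTab.W p_20 prs_20 0 1073741824 := by
  have h0 : On tab p_20 prs_20 0 1073741824 :=
    on_chunk tab_ok tab_SD cs_ok fix_20 c_20_0 (by decide +kernel)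
  exact On.onI h0 rfl rfl

theorem on_21 : OnI tab.toTab.W p_21 prs_21 0 1073741824 := by
  have h0 : On tab p_21 prs_21 0 1073741824 :=
    on_chunk tab_ok tab_SD cs_ok fix_21 c_21_0 (by decide +kernel)
  exact On.onI h0 rfl rfl

theorem on_22 : OnI tab.toTab.W p_22 prs_22 0 1073741824 := by
  have h0 : On tab p_22 prs_22 0 1073741824 :=
    on_chunk tab_ok tab_SD cs_ok fix_22 c_22_0 (by decide +kernel)
  exact On.onI h0 rfl rfl

theorem on_23 : OnI tab.toTab.W p_23 prs_23 0 1073741824 := by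
  have h0 : On tab p_23 prs_23 0 1073741824 :=
    on_chunk tab_ok tab_SD cs_ok fix_23 c_23_0 (by decide +kernel)
  exact On.onI h0 rfl rfl

theorem on_24 : OnI tab.toTab.W p_24 prs_24 0 1073741824 := by
  have h0 : On tab p_24 prs_24 0 600153302 :=
    on_chunk tab_ok tab_SD cs_ok fix_24 c_24_0 (by decide +kernel)
  have h1 : On tab p_24 prs_24 600153302 1073741824 :=
    on_chunk tab_ok tab_SD cs_ok fix_24 c_24_1 (by decide +kernel)
  exact On.onI (h0.trans h1) rfl rfl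

theorem on_25 : OnI tab.toTab.W p_25 prs_25 0 1073741824 := by
  have h0 : On tab p_25 prs_25 0 1073741824 :=
    on_chunk tab_ok tab_SD cs_ok fix_25 c_25_0 (by decide +kernel)
  exact On.onI h0 rfl rfl

theorem on_26 : OnI tab.toTab.W p_26 prs_26 0 1073741824 := by
  have h0 : On tab p_26 prs_26 0 1073741824 :=
    on_chunk tab_ok tab_SD cs_ok fix_26 c_26_0 (by decide +kernel)
  exact On.onI h0 rfl rfl

theorem on_27 : OnI tab.toTab.W p_27 prs_27 0 1073741824 := by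
  have h0 : On tab p_27 prs_27 0 1073741824 :=
    on_chunk tab_ok tab_SD cs_ok fix_27 c_27_0 (by decide +kernel)
  exact On.onI h0 rfl rfl

theorem on_28 : OnI tab.toTab.W p_28 prs_28 0 1073741824 := by
  have h0 : On tab p_28 prs_28 0 18891066 :=
    on_chunk tab_ok tab_SD cs_ok fix_28 c_28_0 (by decide +kernel)
  have h1 : On tab p_28 prs_28 18891066 130291230 :=
    on_chunk tab_ok tab_SD cs_ok fix_28 c_28_1 (by decide +kernel)
  have h2 : On tab p_28 prs_28 130291230 1073741824 :=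
    on_chunk tab_ok tab_SD cs_ok fix_28 c_28_2 (by decide +kernel)
  exact On.onI ((h0.trans h1).trans h2) rfl rfl

theorem on_29 : OnI tab.toTab.W p_29 prs_29 0 16777216 := by
  have h0 : On tab p_29 prs_29 0 16777216 :=
    on_chunk tab_ok tab_SD cs_ok fix_29 c_29_0 (by decide +kernel)
  exact On.onI h0 rfl rfl

theorem on_30 : OnI tab.toTab.W p_30 prs_30 0 16777216 := by
  have h0 : On tab p_30 prs_30 0 16777216 :=
    on_chunk tab_ok tab_SD cs_ok fix_30 c_30_0 (by decide +kernel)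
  exact On.onI h0 rfl rfl

theorem on_31 : OnI tab.toTab.W p_31 prs_31 0 16777216 := by
  have h0 : On tab p_31 prs_31 0 16777216 :=
    on_chunk tab_ok tab_SD cs_ok fix_31 c_31_0 (by decide +kernel)
  exact On.onI h0 rfl rfl

theorem on_32 : OnI tab.toTab.W p_32 prs_32 0 16777216 := by
  have h0 : On tab p_32 prs_32 0 8554590 :=
    on_chunk tab_ok tab_SD cs_ok fix_32 c_32_0 (by decide +kernel)
  have h1 : On tab p_32 prs_32 8554590 16777216 :=
    on_chunk tab_ok tab_SD cs_ok fix_32 c_32_1 (by decide +kernel)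
  exact On.onI (h0.trans h1) rfl rfl

/-- the literal pieces -/
def lit : List PP := [
  ⟨⟨p_0, 0, 16777216⟩, prs_0⟩,
  ⟨⟨p_1, 0, 16777216⟩, prs_1⟩,
  ⟨⟨p_2, 0, 16777216⟩, prs_2⟩,
  ⟨⟨p_3, 0, 16777216⟩, prs_3⟩,
  ⟨⟨p_4, 0, 16777216⟩, prs_4⟩,
  ⟨⟨p_5, 0, 16777216⟩, prs_5⟩,
  ⟨⟨p_6, 0, 16777216⟩, prs_6⟩,
  ⟨⟨p_7, 0, 16777216⟩, prs_7⟩,
  ⟨⟨p_8, 0, 16777216⟩, prs_8⟩,
  ⟨⟨p_9, 0, 16777216⟩, prs_9⟩,
  ⟨⟨p_10, 0, 16777216⟩, prs_10⟩,
  ⟨⟨p_11, 0, 16777216⟩, prs_11⟩,
  ⟨⟨p_12, 0, 1073741824⟩, prs_12⟩,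
  ⟨⟨p_13, 0, 1073741824⟩, prs_13⟩,
  ⟨⟨p_14, 0, 1073741824⟩, prs_14⟩,
  ⟨⟨p_15, 0, 1073741824⟩, prs_15⟩,
  ⟨⟨p_16, 0, 1073741824⟩, prs_16⟩,
  ⟨⟨p_17, 0, 1073741824⟩, prs_17⟩,
  ⟨⟨p_18, 0, 1073741824⟩, prs_18⟩,
  ⟨⟨p_19, 0, 1073741824⟩, prs_19⟩,
  ⟨⟨p_20, 0, 1073741824⟩, prs_20⟩,
  ⟨⟨p_21, 0, 1073741824⟩, prs_21⟩,
  ⟨⟨p_22, 0, 1073741824⟩, prs_22⟩,
  ⟨⟨p_23, 0, 1073741824⟩, prs_23⟩,
  ⟨⟨p_24, 0, 1073741824⟩, prs_24⟩,
  ⟨⟨p_25, 0, 1073741824⟩, prs_25⟩,
  ⟨⟨p_26, 0, 1073741824⟩, prs_26⟩,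
  ⟨⟨p_27, 0, 1073741824⟩, prs_27⟩,
  ⟨⟨p_28, 0, 1073741824⟩, prs_28⟩,
  ⟨⟨p_29, 0, 16777216⟩, prs_29⟩,
  ⟨⟨p_30, 0, 16777216⟩, prs_30⟩,
  ⟨⟨p_31, 0, 16777216⟩, prs_31⟩,
  ⟨⟨p_32, 0, 16777216⟩, prs_32⟩]

/-- **all comparisons hold on the literal pieces** -/
theorem lit_ok : ∀ q ∈ lit, q.Ok tab.toTab.W :=
  PP.ok_cons on_0 <|
  PP.ok_cons on_1 <|
  PP.ok_cons on_2 <|
  PP.ok_cons on_3 <|
  PP.ok_cons on_4 <|
  PP.ok_cons on_5 <|
  PP.ok_cons on_6 <|
  PP.ok_cons on_7 <|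
  PP.ok_cons on_8 <|
  PP.ok_cons on_9 <|
  PP.ok_cons on_10 <|
  PP.ok_cons on_11 <|
  PP.ok_cons on_12 <|
  PP.ok_cons on_13 <|
  PP.ok_cons on_14 <|
  PP.ok_cons on_15 <|
  PP.ok_cons on_16 <|
  PP.ok_cons on_17 <|
  PP.ok_cons on_18 <|
  PP.ok_cons on_19 <|
  PP.ok_cons on_20 <|
  PP.ok_cons on_21 <|
  PP.ok_cons on_22 <|
  PP.ok_cons on_23 <|
  PP.ok_cons on_24 <|
  PP.ok_cons on_25 <|
  PP.ok_cons on_26 <|
  PP.ok_cons on_27 <|
  PP.ok_cons on_28 <|
  PP.ok_cons on_29 <|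
  PP.ok_cons on_30 <|
  PP.ok_cons on_31 <|
  PP.ok_cons on_32 <|
  PP.ok_nil

end Vale.Agent.P030.V1
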